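import Vale.Agent.P281.H349.UK.Rk

/-!
# P281, project T-UD (helper349): block UK, `KodRUStmt`
-/

open Set Filter Metric MeasureTheory Vale.Agent.P281 Vale.Agent.P281.H713
open Vale.Agent.P281.MF Vale.Agent.P281.ISO
open Vale.Agent.P281.H64
open Vale.Agent.P281.H303.UD
open scoped Topology ContDiff Manifold

set_option linter.all false

noncomputable section

namespace Vale.Agent.P281.H349.UK

/-- **Block UK of T-UD.** -/
theorem kodRU : H303.UD.KodRUStmt := by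
  intro p d n nb g b r s X Y _ _ _ _ _ _ _ _ _ T f Δ S Q QB ι U π ϖ j ℓ L u Lw y F _ _ _ i hd
    hf hp hsnc hM hD hyS _ hr hG hnot hi
  haveI := hi.compact
  haveI := hi.manifold
  have h𝒜 : {D | Δ D ≠ 0}.Finite := hsnc.1
  have hP : ∀ D ∈ {D | Δ D ≠ 0}, J.IsPrime (Cm (p + d)) D := hsnc.2.1
  obtain ⟨a, hy⟩ := (hM.cover y).1 hyS
  refine kodR_orb (nb := nb) (B := f ⁻¹' {y}) (V := EuclideanSpace ℂ (Fin g))
    (Vb := EuclideanSpace ℂ (Fin b)) (fib_charts hf hp hyS) hi.hol hi.immersion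
    (fun t => hi.fibre t) fun x₀ hx₀ hoff => ?_
  obtain ⟨β, w, m, q, z₀, ε, H, hq⟩ := exists_flatC hf hp hM hD h𝒜 hP hy hx₀ fun D hD => hoff D hD
  refine ⟨z₀, ε, WW a u β q, m.comp (j a y), ϖ a y, fun z => β (q z), fun z => tri _ (w (q z)),
    H.orbDat hM hD h𝒜 hP hy (fun z hz => H.rank hf hp hM hD h𝒜 hP hy hnot hz)
      (H.gauss hf hp hM hy hG (by rw [finrank_euclideanSpace_fin]; exact hr)), ?_⟩
  rw [H.W_zero hM (mem_ball_self H.pos), hq]

end Vale.Agent.P281.H349.UK
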