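import Vale.Agent.P281.H349.D.Pole

/-!
# P281, project T-UD (helper349, block UK): the number of independent quotients of sections is at most
the rank of the Gauss map and of the third logarithmic derivatives, core
-/

open Set Filter Metric Topology Bornology

set_option linter.all false

noncomputable section

namespace Vale.Agent.P281.H349.UK

open Vale.Agent.P281.H349.D

/-- `ℂ^d` -/
abbrev Cm (d : ℕ) : Type := Fin d → ℂ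

variable {d : ℕ} {V Vb : Type*} [NormedAddCommGroup V] [NormedSpace ℂ V] [FiniteDimensional ℂ V]
  [NormedAddCommGroup Vb] [NormedSpace ℂ Vb] [FiniteDimensional ℂ Vb]

/-- the kernel of the derivatives of the Gauss map and of `g` -/
def ND {W : Type*} [NormedAddCommGroup W] [NormedSpace ℂ W] (h : Cm d → V) (g : Cm d → W)
    (z : Cm d) : Submodule ℂ (Cm d) :=
  LinearMap.ker (fderiv ℂ (fderiv ℂ h) z : Cm d →ₗ[ℂ] (Cm d →L[ℂ] V)) ⊓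
    LinearMap.ker (fderiv ℂ g z : Cm d →ₗ[ℂ] W)

/-- **Block UK, core.** -/
theorem rank_core {z₀ : Cm d} {ε : ℝ} (hε : 0 < ε) {h : Cm d → V}
    {g : Cm d → Vb →L[ℂ] Vb →L[ℂ] Vb →L[ℂ] ℂ} {J : Vb →L[ℂ] Cm d} (hJi : Function.Injective J)
    (hh : AnalyticOnNhd ℂ h (ball z₀ ε)) (hg : AnalyticOnNhd ℂ g (ball z₀ ε))
    (hJ : ∀ z ∈ ball z₀ ε, ∀ v, fderiv ℂ (fderiv ℂ h) z (J v) = 0) {D : Cm d → Set Vb}
    (hD0 : ∀ z ∈ ball z₀ ε, (0 : Vb) ∉ D z) {L : AddSubgroup Vb} {C : Set Vb} (hC : IsCompact C)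
    (hCL : ∀ z, ∃ l ∈ L, z + l ∈ C) (hLD : ∀ z ∈ ball z₀ ε, ∀ l ∈ L, ∀ v ∈ D z, v + l ∈ D z)
    (hthird : ∀ z ∈ ball z₀ ε, ∃ φ, IsThird (D z) φ ∧ ∀ᶠ v in 𝓝 0, φ v = g (z + J v))
    {s : ℕ} (hrank : ∀ z ∈ ball z₀ ε, d ≤ s + Module.finrank ℂ (ND h (fun z => g z) z))
    (hgauss : ∀ U : Set (Cm d), IsOpen U → (U ∩ ball z₀ ε).Nonempty → ∃ z ∈ U ∩ ball z₀ ε,
      d ≤ Module.finrank ℂ (LinearMap.range
        (fderiv ℂ (fderiv ℂ h) z : Cm d →ₗ[ℂ] (Cm d →L[ℂ] V))) + Module.finrank ℂ Vb)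
    {S : ℕ → Cm d → Vb → ℂ} (hSv : ∀ b, ∀ z ∈ ball z₀ ε, ∀ v ∉ D z, AnalyticAt ℂ (S b z) v)
    (hSz : ∀ b, ∀ z ∈ ball z₀ ε, AnalyticAt ℂ (fun z => S b z 0) z)
    (hper : ∀ b, ∀ z ∈ ball z₀ ε, ∀ l ∈ L, ∀ v ∉ D z, S b z (v + l) = S b z v)
    (hloc : ∀ b, ∀ z ∈ ball z₀ ε, ∀ᶠ v in 𝓝 0, S b z v = S b (z + J v) 0)
    (h0 : S 0 z₀ 0 ≠ 0) {j : ℕ} (hsurj : Function.Surjective fun (ξ : Cm d) (b : Fin j) =>
      fderiv ℂ (fun z => S (b + 1) z 0 / S 0 z 0) z₀ ξ) : j ≤ s := by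
  have hz₀ : z₀ ∈ ball z₀ ε := mem_ball_self hε
  have hq : ∀ b : Fin j, ∀ z ∈ ball z₀ ε, S 0 z 0 ≠ 0 →
      AnalyticAt ℂ (fun z => S (b + 1) z 0 / S 0 z 0) z :=
    fun b z hz hz0 => (hSz _ z hz).div (hSz 0 z hz) hz0
  let A : Cm d → Cm d →L[ℂ] (Fin j → ℂ) := fun y =>
    ∑ b : Fin j, (ContinuousLinearMap.single ℂ (fun _ : Fin j => ℂ) b) ∘L
      fderiv ℂ (fun z => S (b + 1) z 0 / S 0 z 0) y
  have hAe : ∀ y ξ, A y ξ = fun b : Fin j => fderiv ℂ (fun z => S (b + 1) z 0 / S 0 z 0) y ξ := by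
    intro y ξ
    have h1 : A y ξ = ∑ b : Fin j, Pi.single b (fderiv ℂ (fun z => S (b + 1) z 0 / S 0 z 0) y ξ) := by
      simp only [A, ContinuousLinearMap.sum_apply, ContinuousLinearMap.comp_apply]
      rfl
    rw [h1]
    exact Finset.univ_sum_single _
  have hA : ContinuousAt A z₀ := by
    refine tendsto_finset_sum _ fun b _ => ?_
    exact ((ContinuousLinearMap.compL ℂ (Cm d) ℂ (Fin j → ℂ)
      (ContinuousLinearMap.single ℂ (fun _ : Fin j => ℂ) b)).continuous.continuousAt.comp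
        (hq b z₀ hz₀ h0).fderiv.continuousAt)
  have hAs : Function.Surjective (A z₀) := by
    have h1 : (A z₀ : Cm d → Fin j → ℂ) = fun (ξ : Cm d) (b : Fin j) =>
      fderiv ℂ (fun z => S (b + 1) z 0 / S 0 z 0) z₀ ξ := by funext ξ; exact hAe z₀ ξ
    rw [h1]
    exact hsurj
  have hn0 : ∀ᶠ y in 𝓝 z₀, S 0 y 0 ≠ 0 := (hSz 0 z₀ hz₀).continuousAt.eventually_ne h0
  obtain ⟨U₁, hU₁, hU₁o, hzU₁⟩ := _root_.eventually_nhds_iff.1
    ((hn0.and (surj_open hA hAs)).and (isOpen_ball.mem_nhds hz₀))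
  -- points where the Gauss map has the rank of the quotient
  set κ : Cm d → (Cm d →L[ℂ] (Cm d →L[ℂ] V)) := fun z => fderiv ℂ (fderiv ℂ h) z with hκ
  have hκc : ContinuousOn κ (ball z₀ ε) := fun z hz =>
    ((hh z hz).fderiv.fderiv.continuousAt).continuousWithinAt
  set b := Module.finrank ℂ Vb with hb
  obtain ⟨z', ⟨hz'U, hz'b⟩, hz'r⟩ := hgauss U₁ hU₁o ⟨z₀, hzU₁, hz₀⟩
  set O : Set (Cm d →L[ℂ] (Cm d →L[ℂ] V)) :=
    {f | ((d - b : ℕ) : Cardinal) ≤ (f : Cm d →ₗ[ℂ] (Cm d →L[ℂ] V)).rank} with hO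
  have hOo : IsOpen O := isOpen_setOf_nat_le_rank _
  have hOr : ∀ f : Cm d →L[ℂ] (Cm d →L[ℂ] V), f ∈ O ↔ d - b ≤ Module.finrank ℂ
      (LinearMap.range (f : Cm d →ₗ[ℂ] (Cm d →L[ℂ] V))) := by
    intro f
    rw [hO, mem_ofPred_eq, LinearMap.rank, ← Module.finrank_eq_rank]
    exact Nat.cast_le
  set U₂ : Set (Cm d) := U₁ ∩ (ball z₀ ε ∩ κ ⁻¹' O) with hU₂
  have hU₂o : IsOpen U₂ := hU₁o.inter (hκc.isOpen_inter_preimage isOpen_ball hOo)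
  have hz'U₂ : z' ∈ U₂ := ⟨hz'U, hz'b, (hOr _).2 (Nat.sub_le_iff_le_add.2 hz'r)⟩
  -- the kernel
  have hker : ∀ z ∈ U₂, ∀ ξ, fderiv ℂ (fderiv ℂ h) z ξ = 0 → ∃ v, J v = ξ := by
    intro z hz ξ hξ
    have h1 : LinearMap.range (J : Vb →ₗ[ℂ] Cm d) ≤
        LinearMap.ker (κ z : Cm d →ₗ[ℂ] (Cm d →L[ℂ] V)) := by
      rintro _ ⟨v, rfl⟩
      exact hJ z hz.2.1 v
    have h2 := (hOr _).1 hz.2.2
    have h3 := LinearMap.finrank_range_add_finrank_ker (κ z : Cm d →ₗ[ℂ] (Cm d →L[ℂ] V))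
    rw [Module.finrank_fin_fun] at h3
    have h4 : Module.finrank ℂ (LinearMap.range (J : Vb →ₗ[ℂ] Cm d)) = b :=
      LinearMap.finrank_range_of_inj hJi
    have h6 := Submodule.finrank_mono h1
    have h5 : LinearMap.range (J : Vb →ₗ[ℂ] Cm d) =
        LinearMap.ker (κ z : Cm d →ₗ[ℂ] (Cm d →L[ℂ] V)) :=
      Submodule.eq_of_le_of_finrank_le h1 (by omega)
    have h7 : ξ ∈ LinearMap.range (J : Vb →ₗ[ℂ] Cm d) := by rw [h5]; exact hξ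
    exact h7
  have hfin : ∀ z ∈ U₂, Module.finrank ℂ (ND h (fun z => g z) z) = Module.finrank ℂ
      (LinearMap.ker (((fderiv ℂ g z).comp J : Vb →L[ℂ] Vb →L[ℂ] Vb →L[ℂ] Vb →L[ℂ] ℂ) :
        Vb →ₗ[ℂ] (Vb →L[ℂ] Vb →L[ℂ] Vb →L[ℂ] ℂ))) := by
    intro z hz
    have h1 : ND h (fun z => g z) z = (LinearMap.ker (((fderiv ℂ g z).comp J :
        Vb →L[ℂ] Vb →L[ℂ] Vb →L[ℂ] Vb →L[ℂ] ℂ) :
          Vb →ₗ[ℂ] (Vb →L[ℂ] Vb →L[ℂ] Vb →L[ℂ] ℂ))).map (J : Vb →ₗ[ℂ] Cm d) := by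
      ext ξ
      rw [Submodule.mem_map]
      constructor
      · rintro ⟨h2, h3⟩
        obtain ⟨v, rfl⟩ := hker z hz ξ h2
        exact ⟨v, h3, rfl⟩
      · rintro ⟨v, hv, rfl⟩
        exact ⟨hJ z hz.2.1 v, hv⟩
    rw [h1]
    exact (LinearEquiv.finrank_eq (Submodule.equivMapOfInjective (J : Vb →ₗ[ℂ] Cm d) hJi _)).symm
  -- the minimum
  obtain ⟨z₁, hz₁, hmin⟩ := WellFounded.has_min
    (measure fun z => Module.finrank ℂ (ND h (fun z => g z) z)).wf U₂ ⟨z', hz'U₂⟩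
  have hz₁b : z₁ ∈ ball z₀ ε := hz₁.2.1
  obtain ⟨φ, hφ, hφg⟩ := hthird z₁ hz₁b
  have hφd : ∀ᶠ v in 𝓝 (0 : Vb), fderiv ℂ φ v = (fderiv ℂ g (z₁ + J v)).comp J ∧
      z₁ + J v ∈ U₂ := by
    have hc : ContinuousAt (fun v : Vb => z₁ + J v) 0 := by fun_prop
    have h1 : ∀ᶠ v in 𝓝 (0 : Vb), z₁ + J v ∈ U₂ :=
      hc.eventually (hU₂o.mem_nhds (by simpa using hz₁))
    filter_upwards [eventually_eventually_nhds.2 hφg, h1] with v h2 h3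
    refine ⟨?_, h3⟩
    have h4 : φ =ᶠ[𝓝 v] fun v => g (z₁ + J v) := h2
    rw [h4.fderiv_eq]
    have h5 : HasFDerivAt (fun v : Vb => z₁ + J v) J v := (J.hasFDerivAt).const_add z₁
    exact ((hg _ h3.2.1).differentiableAt.hasFDerivAt.comp v h5).fderiv
  have h00 := hφd.self_of_nhds
  rw [map_zero, add_zero] at h00
  have hmin' : ∀ᶠ v in 𝓝 (0 : Vb), Module.finrank ℂ
      (LinearMap.ker (fderiv ℂ φ 0 : Vb →ₗ[ℂ] (Vb →L[ℂ] Vb →L[ℂ] Vb →L[ℂ] ℂ))) ≤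
      Module.finrank ℂ
        (LinearMap.ker (fderiv ℂ φ v : Vb →ₗ[ℂ] (Vb →L[ℂ] Vb →L[ℂ] Vb →L[ℂ] ℂ))) := by
    filter_upwards [hφd] with v hv
    rw [h00.1, hv.1, ← hfin z₁ hz₁, ← hfin _ hv.2]
    exact not_lt.1 (hmin _ hv.2)
  set K : Submodule ℂ Vb :=
    LinearMap.ker (fderiv ℂ φ 0 : Vb →ₗ[ℂ] (Vb →L[ℂ] Vb →L[ℂ] Vb →L[ℂ] ℂ)) with hK
  have hPS := hφ.polarSym
  have hKm : ∀ k ∈ K, (0 : Vb) + k ∉ D z₁ := fun k hk => hPS.miss (hD0 z₁ hz₁b) hmin' hk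
  have hconst : ∀ b, ∀ k ∈ K, S b z₁ (0 + k) = S b z₁ 0 := fun b =>
    const_leaf hPS.closed hPS.loc (hLD z₁ hz₁b) hKm hC hCL (hSv b z₁ hz₁b)
      (fun l hl z hz => hper b z₁ hz₁b l hl z hz)
  -- the differentials of the quotients vanish on `J K`
  have hU1 := hU₁ z₁ hz₁.1
  have hAk : ∀ k ∈ K, A z₁ (J k) = 0 := by
    intro k hk
    rw [hAe]
    funext b
    have h1 : HasFDerivAt (fun z => S (b + 1) z 0 / S 0 z 0)
        (fderiv ℂ (fun z => S (b + 1) z 0 / S 0 z 0) z₁) (z₁ + J ((0 : ℂ) • k)) := by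
      rw [zero_smul, map_zero, add_zero]
      exact (hq b z₁ hz₁b hU1.1.1).differentiableAt.hasFDerivAt
    have h2 : HasDerivAt (fun t : ℂ => z₁ + J (t • k)) (J k) 0 := by
      have h3 : HasDerivAt (fun t : ℂ => t • k) k 0 := by
        simpa using (hasDerivAt_id (0 : ℂ)).smul_const k
      exact (J.hasFDerivAt.comp_hasDerivAt (0 : ℂ) h3).const_add z₁
    have h3 := h1.comp_hasDerivAt (0 : ℂ) h2
    have h4 : ((fun z => S (b + 1) z 0 / S 0 z 0) ∘ fun t : ℂ => z₁ + J (t • k)) =ᶠ[𝓝 0]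
        fun _ => S (b + 1) z₁ 0 / S 0 z₁ 0 := by
      have h5 : Tendsto (fun t : ℂ => t • k) (𝓝 0) (𝓝 0) := by
        have : Continuous fun t : ℂ => t • k := by fun_prop
        simpa using this.tendsto 0
      filter_upwards [h5.eventually (hloc (b + 1) z₁ hz₁b), h5.eventually (hloc 0 z₁ hz₁b)]
        with t h6 h7
      have h8 := hconst (b + 1) _ (K.smul_mem t hk)
      have h9 := hconst 0 _ (K.smul_mem t hk)
      rw [zero_add] at h8 h9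
      show S (b + 1) (z₁ + J (t • k)) 0 / S 0 (z₁ + J (t • k)) 0 = _
      rw [← h6, ← h7, h8, h9]
    exact h3.unique ((hasDerivAt_const _ _).congr_of_eventuallyEq h4)
  have hle : K.map (J : Vb →ₗ[ℂ] Cm d) ≤ LinearMap.ker (A z₁ : Cm d →ₗ[ℂ] (Fin j → ℂ)) := by
    rintro _ ⟨k, hk, rfl⟩
    exact hAk k hk
  have e1 := LinearMap.finrank_range_add_finrank_ker (A z₁ : Cm d →ₗ[ℂ] (Fin j → ℂ))
  rw [LinearMap.range_eq_top.2 hU1.1.2, finrank_top, Module.finrank_fin_fun,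
    Module.finrank_fin_fun] at e1
  have e2 := Submodule.finrank_mono hle
  have e3 : Module.finrank ℂ (K.map (J : Vb →ₗ[ℂ] Cm d)) = Module.finrank ℂ K :=
    (LinearEquiv.finrank_eq (Submodule.equivMapOfInjective (J : Vb →ₗ[ℂ] Cm d) hJi _)).symm
  have e4 : Module.finrank ℂ K = Module.finrank ℂ (ND h (fun z => g z) z₁) := by
    rw [hfin z₁ hz₁, hK, h00.1]
  have e5 := hrank z₁ hz₁b
  omega

end Vale.Agent.P281.H349.UK
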