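import Vale.Agent.P281.H349.D.Kod
import Vale.Agent.P281.H349.UK.Core

/-!
# P281, project T-UD (helper349, block UK): lifts of the orbits to the fibre
-/

open Set Filter Metric Vale.Agent.P281 Vale.Agent.P281.H713
open Vale.Agent.P281.MF Vale.Agent.P281.ISO
open Vale.Agent.P281.H713.TZ Vale.Agent.P281.H64
open scoped Topology ContDiff Manifold

set_option linter.all false

noncomputable section

namespace Vale.Agent.P281.H349.UK

section retr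
variable {n d : ℕ} {X F : Type} [TopologicalSpace X] [ChartedSpace (Cm n) X]
  [IsManifold 𝓘(ℂ, Cm n) ω X] [TopologicalSpace F] [ChartedSpace (Cm d) F]
  [IsManifold 𝓘(ℂ, Cm d) ω F] {i : F → X}

/-- a local holomorphic left inverse of an immersion -/
theorem exists_retr {t : F} (hi : ContMDiffAt 𝓘(ℂ, Cm d) 𝓘(ℂ, Cm n) ω i t)
    (himm : Function.Injective (mfderiv 𝓘(ℂ, Cm d) 𝓘(ℂ, Cm n) i t)) :
    ∃ R : X → F, ContMDiffAt 𝓘(ℂ, Cm n) 𝓘(ℂ, Cm d) ω R (i t) ∧ ∀ᶠ t' in 𝓝 t, R (i t') = t' := by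
  obtain ⟨B, hB⟩ := H969.K.FibN.exists_left hi himm
  set e := chartAt (Cm d) t with he
  set c := chartAt (Cm n) (i t) with hc
  set G : Cm d → Cm d := fun u => B (c (i (e.symm u))) with hG
  have het : t ∈ e.source := mem_chart_source _ _
  have hes : ContMDiffAt 𝓘(ℂ, Cm d) 𝓘(ℂ, Cm d) ω e.symm (e t) :=
    contMDiffAt_symm_of_mem_maximalAtlas (IsManifold.chart_mem_maximalAtlas _) (e.map_source het)
  have hcs : ContMDiffAt 𝓘(ℂ, Cm n) 𝓘(ℂ, Cm n) ω c (i t) :=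
    contMDiffAt_of_mem_maximalAtlas (IsManifold.chart_mem_maximalAtlas _) (mem_chart_source _ _)
  have hBc : ContMDiffAt 𝓘(ℂ, Cm n) 𝓘(ℂ, Cm d) ω (fun x => B (c x)) (i t) :=
    ContMDiffAt.comp (g := B) (i t) B.contMDiff.contMDiffAt hcs
  have hGA : ContDiffAt ℂ ω G (e t) := by
    have h1 : ContMDiffAt 𝓘(ℂ, Cm d) 𝓘(ℂ, Cm n) ω (fun u => i (e.symm u)) (e t) :=
      ContMDiffAt.comp (g := i) (e t) (by rw [e.left_inv het]; exact hi) hes
    have h2 : ContMDiffAt 𝓘(ℂ, Cm d) 𝓘(ℂ, Cm d) ω G (e t) :=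
      ContMDiffAt.comp (g := fun x => B (c x)) (e t) (by rw [e.left_inv het]; exact hBc) h1
    exact contMDiffAt_iff_contDiffAt.1 h2
  have hGd : HasFDerivAt G ((ContinuousLinearEquiv.refl ℂ (Cm d) : Cm d ≃L[ℂ] Cm d) :
      Cm d →L[ℂ] Cm d) (e t) := hB.hasFDerivAt
  have hne : (ω : WithTop ℕ∞) ≠ 0 := by simp
  set ρ := hGA.localInverse hGd hne with hρ
  have hρA : ContDiffAt ℂ ω ρ (G (e t)) := hGA.to_localInverse hGd hne
  have hρinv : ∀ᶠ u in 𝓝 (e t), ρ (G u) = u :=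
    (hGA.hasStrictFDerivAt' hGd hne).eventually_left_inverse
  have hGt : G (e t) = B (c (i t)) := by
    show B (c (i (e.symm (e t)))) = _
    rw [e.left_inv het]
  have hρt : ρ (B (c (i t))) = e t := by rw [← hGt]; exact hρinv.self_of_nhds
  refine ⟨fun x => e.symm (ρ (B (c x))), ?_, ?_⟩
  · have h1 : ContMDiffAt 𝓘(ℂ, Cm n) 𝓘(ℂ, Cm d) ω (fun x => ρ (B (c x))) (i t) :=
      ContMDiffAt.comp (g := ρ) (i t) (by rw [← hGt]; exact hρA.contMDiffAt) hBc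
    exact ContMDiffAt.comp (g := e.symm) (i t) (by rw [hρt]; exact hes) h1
  · filter_upwards [e.open_source.mem_nhds het, (e.continuousAt het).eventually hρinv] with t' h1 h2
    show e.symm (ρ (B (c (i t')))) = t'
    have h3 : G (e t') = B (c (i t')) := by
      show B (c (i (e.symm (e t')))) = _
      rw [e.left_inv h1]
    rw [← h3, h2, e.left_inv h1]

/-- lifts through an immersion are holomorphic -/
theorem lift_hol {A : Type} [NormedAddCommGroup A] [NormedSpace ℂ A] {g : A → F} {w : A → X}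
    {a : A} (hi : ContMDiffAt 𝓘(ℂ, Cm d) 𝓘(ℂ, Cm n) ω i (g a))
    (himm : Function.Injective (mfderiv 𝓘(ℂ, Cm d) 𝓘(ℂ, Cm n) i (g a)))
    (hg : ContinuousAt g a) (hw : ContMDiffAt 𝓘(ℂ, A) 𝓘(ℂ, Cm n) ω w a)
    (hgw : ∀ᶠ a' in 𝓝 a, i (g a') = w a') : ContMDiffAt 𝓘(ℂ, A) 𝓘(ℂ, Cm d) ω g a := by
  obtain ⟨R, hR, hRi⟩ := exists_retr hi himm
  have h1 : ContMDiffAt 𝓘(ℂ, A) 𝓘(ℂ, Cm d) ω (fun a' => R (w a')) a :=
    ContMDiffAt.comp (g := R) a (by rw [← hgw.self_of_nhds]; exact hR) hw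
  refine h1.congr_of_eventuallyEq ?_
  filter_upwards [hg.eventually hRi, hgw] with a' h2 h3
  rw [← h3, h2]

/-- `F` is a covering of the closed submanifold `B` -/
theorem isCovering [T2Space X] [T2Space F] [CompactSpace F] {B : Set X}
    (hB : ∀ x ∈ B, ∃ (Q : Cm d → X) (ζ : X → Cm d), ContMDiffAt 𝓘(ℂ, Cm d) 𝓘(ℂ, Cm n) ω Q (ζ x) ∧
      Q (ζ x) = x ∧ ContMDiffAt 𝓘(ℂ, Cm n) 𝓘(ℂ, Cm d) ω ζ x ∧
      ∀ᶠ x' in 𝓝 x, x' ∈ B → Q (ζ x') = x')
    (ihol : ContMDiff 𝓘(ℂ, Cm d) 𝓘(ℂ, Cm n) ω i)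
    (imm : ∀ x, Function.Injective (mfderiv 𝓘(ℂ, Cm d) 𝓘(ℂ, Cm n) i x))
    (hi : ∀ x, i x ∈ B) :
    IsCoveringMap fun x : F => (⟨i x, hi x⟩ : B) := by
  rw [← isLocalHomeomorph_iff_isCoveringMap]
  have hc : Continuous fun x : F => (⟨i x, hi x⟩ : B) := ihol.continuous.subtype_mk _
  refine H603.TE.isLocalHomeomorph_of hc ?_ ?_
  · -- locally injective
    intro x₀
    obtain ⟨R, hR, hRi⟩ := exists_retr (ihol x₀) (imm x₀)
    refine ⟨_, hRi, ?_⟩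
    intro x hx x' hx' hxx
    have hxx' : i x = i x' := congrArg Subtype.val hxx
    have a1 : R (i x) = x := hx
    have a2 : R (i x') = x' := hx'
    rw [← a1, ← a2, hxx']
  · -- open
    intro x₀
    refine le_antisymm hc.continuousAt ?_
    obtain ⟨Q, ζ, hQ, hQx, hζ, hQζ⟩ := hB (i x₀) (hi x₀)
    set ch := chartAt (Cm d) x₀ with hch
    have hg : ContMDiffAt 𝓘(ℂ, Cm d) 𝓘(ℂ, Cm d) ω (fun x => ζ (i x)) x₀ :=
      ContMDiffAt.comp x₀ hζ (ihol x₀)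
    have hloc : i =ᶠ[𝓝 x₀] Q ∘ fun x => ζ (i x) := by
      filter_upwards [(ihol x₀).continuousAt.eventually hQζ] with x hx
      exact (hx (hi x)).symm
    have hinj : Function.Injective (mfderiv 𝓘(ℂ, Cm d) 𝓘(ℂ, Cm d) (fun x => ζ (i x)) x₀) := by
      have h5 := (((hQ.mdifferentiableAt (by simp)).hasMFDerivAt.comp x₀
        (hg.mdifferentiableAt (by simp)).hasMFDerivAt).congr_of_eventuallyEq hloc).mfderiv
      have h6 : ∀ ξ : Cm d, (mfderiv 𝓘(ℂ, Cm d) 𝓘(ℂ, Cm n) i x₀ ξ : Cm n) =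
          (mfderiv 𝓘(ℂ, Cm d) 𝓘(ℂ, Cm n) Q (ζ (i x₀))
            (mfderiv 𝓘(ℂ, Cm d) 𝓘(ℂ, Cm d) (fun x => ζ (i x)) x₀ ξ) : Cm n) := fun ξ =>
        congrArg (fun L : Cm d →L[ℂ] Cm n => L ξ) h5
      intro ξ ξ' hξ
      refine imm x₀ ?_
      have e1 := h6 ξ
      have e2 := h6 ξ'
      rw [hξ] at e1
      exact e1.trans e2.symm
    rw [H125.Fib.mfderiv_eq' (hg.mdifferentiableAt (by simp))] at hinj
    obtain ⟨G', hG'⟩ := H125.Fib.exists_equiv hinj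
    have h4 : HasStrictFDerivAt (fun u => ζ (i (ch.symm u))) (G' : Cm d →L[ℂ] Cm d) (ch x₀) := by
      rw [hG']
      exact (H125.Fib.contDiffAt_chart hg).hasStrictFDerivAt (by simp)
    have hmap : Filter.map (fun x => ζ (i x)) (𝓝 x₀) = 𝓝 (ζ (i x₀)) := by
      have e1 := h4.map_nhds_eq_of_equiv
      rw [ch.left_inv (mem_chart_source _ x₀)] at e1
      rw [← e1, ← ch.map_nhds_eq (mem_chart_source _ x₀), Filter.map_map]
      refine Filter.map_congr ?_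
      filter_upwards [ch.open_source.mem_nhds (mem_chart_source _ x₀)] with x hx'
      show ζ (i x) = ζ (i (ch.symm (ch x)))
      rw [ch.left_inv hx']
    intro U hU
    rw [Filter.mem_map] at hU
    have h7 : ∀ᶠ x' in 𝓝 x₀, (⟨i x', hi x'⟩ : B) ∈ U ∧ Q (ζ (i x')) = i x' := by
      filter_upwards [hU, ihol.continuous.continuousAt.eventually hQζ] with x' a b
      exact ⟨a, b (hi x')⟩
    have h8 : ∀ᶠ u in 𝓝 (ζ (i x₀)), ∃ x', ζ (i x') = u ∧ (⟨i x', hi x'⟩ : B) ∈ U ∧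
        Q (ζ (i x')) = i x' := by
      rw [← hmap, eventually_map]
      filter_upwards [h7] with x' hx' using ⟨x', rfl, hx'⟩
    have h9 : ∀ᶠ y in 𝓝 (i x₀), ∃ x', ζ (i x') = ζ y ∧ (⟨i x', hi x'⟩ : B) ∈ U ∧
        Q (ζ (i x')) = i x' :=
      hζ.continuousAt.eventually (p := fun u => ∃ x', ζ (i x') = u ∧
        (⟨i x', hi x'⟩ : B) ∈ U ∧ Q (ζ (i x')) = i x') h8
    have h10 : ∀ᶠ y : B in 𝓝 (⟨i x₀, hi x₀⟩ : B), y ∈ U := by
      have h11 := (continuous_subtype_val.tendsto (⟨i x₀, hi x₀⟩ : B)).eventually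
        (h9.and hQζ)
      filter_upwards [h11] with y hy
      obtain ⟨⟨x', e1, e2, e3⟩, e4⟩ := hy
      have e5 : i x' = (y : X) := by rw [← e3, e1, e4 y.2]
      have e6 : (⟨i x', hi x'⟩ : B) = y := Subtype.ext e5
      rw [← e6]
      exact e2
    exact h10

end retr

end Vale.Agent.P281.H349.UK
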