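import Vale.Agent.P281.H349.UK.Core
import Vale.Agent.P281.H349.D.RkL
import Vale.Agent.P281.H511.UD.Spec
import Vale.Agent.P281.H64.TD.SpecB

/-!
# P281, project T-UD (helper349, block UK): the rank of the Gauss map and of the third logarithmic
derivatives, linear algebra
-/

open Set Filter Metric Topology
open Vale.Agent.P281.H713 (minor)
open Vale.Agent.P281.H64.TU (RankAt)

set_option linter.all false

noncomputable section

namespace Vale.Agent.P281.H349.UK

section tri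
variable (V : Type*) [NormedAddCommGroup V] [NormedSpace ℂ V]

/-- currying of cubic tensors -/
def tri : (V [×3]→L[ℂ] ℂ) →L[ℂ] (V →L[ℂ] V →L[ℂ] V →L[ℂ] ℂ) :=
  (ContinuousLinearMap.compL ℂ V (V [×2]→L[ℂ] ℂ) (V →L[ℂ] V →L[ℂ] ℂ)
    ((ContinuousLinearMap.compL ℂ V (V [×1]→L[ℂ] ℂ) (V →L[ℂ] ℂ)
      (((continuousMultilinearCurryFin1 ℂ V ℂ).toContinuousLinearEquiv :
        (V [×1]→L[ℂ] ℂ) →L[ℂ] (V →L[ℂ] ℂ)))).comp
      ((continuousMultilinearCurryLeftEquiv ℂ (fun _ : Fin 2 => V) ℂ).toContinuousLinearEquiv :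
        (V [×2]→L[ℂ] ℂ) →L[ℂ] (V →L[ℂ] (V [×1]→L[ℂ] ℂ))))).comp
    ((continuousMultilinearCurryLeftEquiv ℂ (fun _ : Fin 3 => V) ℂ).toContinuousLinearEquiv :
        (V [×3]→L[ℂ] ℂ) →L[ℂ] (V →L[ℂ] (V [×2]→L[ℂ] ℂ)))

variable {V}

theorem tri_apply (T : V [×3]→L[ℂ] ℂ) (a b c : V) : tri V T a b c = T ![a, b, c] := by
  show T (Fin.cons a (Fin.cons b (Fin.snoc 0 c))) = _
  congr 1
  funext i
  fin_cases i <;> rfl

end tri

section alg

variable {d : ℕ} {V Vb : Type} [NormedAddCommGroup V] [InnerProductSpace ℂ V]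
  [FiniteDimensional ℂ V] [NormedAddCommGroup Vb] [InnerProductSpace ℂ Vb]
  [FiniteDimensional ℂ Vb]

theorem det_row (i : Fin d) (v : Fin d → ℂ) :
    (Matrix.updateRow (1 : Matrix (Fin d) (Fin d) ℂ) i v).det = v i := by
  rw [← Matrix.cramer_transpose_apply, Matrix.transpose_one, Matrix.cramer_one]
  rfl

/-- the coordinates -/
abbrev co (m : V →L[ℂ] Cm d) (i : Fin d) : V →L[ℂ] ℂ := (ContinuousLinearMap.proj i).comp m

variable {h : Cm d → V} {m : V →L[ℂ] Cm d} {z : Cm d}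

theorem m_deriv (hh : DifferentiableAt ℂ h z) (hm : ∀ᶠ u in 𝓝 z, m (h u) = u) (ξ : Cm d) :
    m (fderiv ℂ h z ξ) = ξ := by
  have h1 : HasFDerivAt (fun u => m (h u)) (m.comp (fderiv ℂ h z)) z :=
    m.hasFDerivAt.comp z hh.hasFDerivAt
  have h2 : (fun u => m (h u)) =ᶠ[𝓝 z] id := hm
  have h3 := (h1.congr_of_eventuallyEq h2.symm).unique (hasFDerivAt_id z)
  exact congrArg (fun L : Cm d →L[ℂ] Cm d => L ξ) h3

theorem mat_co (hh : DifferentiableAt ℂ h z) (hm : ∀ᶠ u in 𝓝 z, m (h u) = u) :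
    (Matrix.of fun a b => co m a (fderiv ℂ h z (Pi.single b 1))) = (1 : Matrix (Fin d) (Fin d) ℂ) := by
  ext a b
  show m (fderiv ℂ h z (Pi.single b 1)) a = (1 : Matrix (Fin d) (Fin d) ℂ) a b
  rw [m_deriv hh hm, Matrix.one_apply, Pi.single_apply]

theorem minor_co (hh : DifferentiableAt ℂ h z) (hm : ∀ᶠ u in 𝓝 z, m (h u) = u) :
    minor (co m) h z = 1 := by
  unfold minor
  rw [mat_co hh hm, Matrix.det_one]

theorem minor_up (hh : DifferentiableAt ℂ h z) (hm : ∀ᶠ u in 𝓝 z, m (h u) = u) (i : Fin d)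
    (l : V →L[ℂ] ℂ) : minor (Function.update (co m) i l) h z = l (fderiv ℂ h z (Pi.single i 1)) := by
  unfold minor
  have h1 : (Matrix.of fun a b => (Function.update (co m) i l) a (fderiv ℂ h z (Pi.single b 1))) =
      Matrix.updateRow (1 : Matrix (Fin d) (Fin d) ℂ) i
        (fun b => l (fderiv ℂ h z (Pi.single b 1))) := by
    rw [← mat_co hh hm]
    ext a b
    rw [Matrix.updateRow_apply]
    by_cases ha : a = i
    · subst ha
      simp
    · simp [ha]
  rw [h1, det_row]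

/-- **(G1)** -/
theorem rankUD_of_finrank {s : ℕ} {w : Cm d → H64.TD.Cub Vb} {ℓ : V →L[ℂ] Vb} {j : Vb →L[ℂ] V}
    (hℓ : ∀ v, ℓ (j v) = v) (hh : AnalyticAt ℂ h z) (hm : ∀ᶠ u in 𝓝 z, m (h u) = u)
    (hw : DifferentiableAt ℂ w z) (hlt : s + Module.finrank ℂ (ND h w z) < d) :
    H511.UD.RankUDAt (s + 1) h (fun u => (w u).compContinuousLinearMap fun _ => ℓ) z := by
  classical
  set A : Cm d →L[ℂ] (Cm d →L[ℂ] V) × H64.TD.Cub Vb :=
    (fderiv ℂ (fderiv ℂ h) z).prod (fderiv ℂ w z) with hA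
  have hker : LinearMap.ker (A : Cm d →ₗ[ℂ] (Cm d →L[ℂ] V) × H64.TD.Cub Vb) = ND h w z := by
    ext ξ
    constructor
    · intro h1
      have h2 : (fderiv ℂ (fderiv ℂ h) z ξ, fderiv ℂ w z ξ) = 0 := h1
      exact ⟨congrArg Prod.fst h2, congrArg Prod.snd h2⟩
    · rintro ⟨h1, h2⟩
      exact Prod.ext h1 h2
  have hfr := LinearMap.finrank_range_add_finrank_ker
    (A : Cm d →ₗ[ℂ] (Cm d →L[ℂ] V) × H64.TD.Cub Vb)
  rw [hker, Module.finrank_fin_fun] at hfr
  let e : (Fin d × (V →L[ℂ] ℂ)) ⊕ (Vb × Vb × Vb) →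
      ((Cm d →L[ℂ] V) × H64.TD.Cub Vb) →L[ℂ] ℂ := fun k =>
    Sum.elim (fun q => (q.2.comp (ContinuousLinearMap.apply ℂ V (Pi.single q.1 1))).comp
        (ContinuousLinearMap.fst ℂ _ _))
      (fun t => (ContinuousMultilinearMap.apply ℂ (fun _ : Fin 3 => Vb) ℂ ![t.1, t.2.1, t.2.2]).comp
        (ContinuousLinearMap.snd ℂ _ _)) k
  obtain ⟨k, hk⟩ := H349.D.exists_functionals
    (R := LinearMap.range (A : Cm d →ₗ[ℂ] (Cm d →L[ℂ] V) × H64.TD.Cub Vb))
    (ι := (Fin d × (V →L[ℂ] ℂ)) ⊕ (Vb × Vb × Vb))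
    (fun i => ((e i : ((Cm d →L[ℂ] V) × H64.TD.Cub Vb) →L[ℂ] ℂ) :
      ((Cm d →L[ℂ] V) × H64.TD.Cub Vb) →ₗ[ℂ] ℂ).comp (Submodule.subtype _)) (by
      intro T hT
      apply Subtype.ext
      refine Prod.ext ?_ ?_
      · have h1 : ∀ i, (T : (Cm d →L[ℂ] V) × H64.TD.Cub Vb).1 (Pi.single i 1) = 0 := by
          intro i
          refine (NormedSpace.eq_zero_iff_forall_dual_eq_zero ℂ _).2 fun l => ?_
          exact hT (Sum.inl (i, l))
        refine ContinuousLinearMap.ext fun ξ => ?_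
        have h2 : ξ = ∑ i, ξ i • (Pi.single i (1 : ℂ) : Cm d) := by
          funext a
          simp [Finset.sum_apply, Pi.single_apply]
        rw [h2, map_sum]
        simp [h1]
      · ext v
        have h2 : v = ![v 0, v 1, v 2] := by
          funext i
          fin_cases i <;> rfl
        rw [h2]
        exact hT (Sum.inr (v 0, v 1, v 2))) (k := s + 1) (by omega)
  have hev : ∀ᶠ u in 𝓝 z, DifferentiableAt ℂ h u ∧ ∀ᶠ u in 𝓝 u, m (h u) = u := by
    filter_upwards [hh.eventually_analyticAt, eventually_eventually_nhds.2 hm] with u h1 h2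
    exact ⟨h1.differentiableAt, h2⟩
  let M : Fin (s + 1) → Fin d → (V →L[ℂ] ℂ) := fun b =>
    Sum.elim (fun q => Function.update (co m) q.1 q.2) (fun _ => co m) (k b)
  let Λ : Fin (s + 1) → ((ℂ × H64.TD.Cub V) →L[ℂ] ℂ) := fun b =>
    Sum.elim (fun _ => ContinuousLinearMap.fst ℂ _ _)
      (fun t => (ContinuousMultilinearMap.apply ℂ (fun _ : Fin 3 => V) ℂ
        ![j t.1, j t.2.1, j t.2.2]).comp (ContinuousLinearMap.snd ℂ _ _)) (k b)
  refine ⟨Fin.cons (co m) M, Fin.cons (ContinuousLinearMap.fst ℂ _ _) Λ, ?_, ?_⟩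
  · rw [Fin.cons_zero, Fin.cons_zero, minor_co hh.differentiableAt hm]
    simp
  · intro y
    obtain ⟨⟨T, ξ, hξ⟩, hT⟩ := hk y
    refine ⟨ξ, ?_⟩
    rw [← hT]
    funext b
    show _ = e (k b) T
    have hξ' : (fderiv ℂ (fderiv ℂ h) z ξ, fderiv ℂ w z ξ) = T := hξ
    simp only [Fin.cons_succ, Fin.cons_zero]
    rcases hkb : k b with q | t
    · have h1 : (fun u => minor (M b) h u * Λ b (1, (w u).compContinuousLinearMap fun _ => ℓ) /
          (minor (co m) h u * (ContinuousLinearMap.fst ℂ ℂ (H64.TD.Cub V))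
            (1, (w u).compContinuousLinearMap fun _ => ℓ))) =ᶠ[𝓝 z]
          fun u => q.2 (fderiv ℂ h u (Pi.single q.1 1)) := by
        filter_upwards [hev] with u hu
        have h2 : M b = Function.update (co m) q.1 q.2 := by simp only [M, hkb, Sum.elim_inl]
        have h3 : Λ b = ContinuousLinearMap.fst ℂ _ _ := by simp only [Λ, hkb, Sum.elim_inl]
        rw [h2, h3, minor_up hu.1 hu.2, minor_co hu.1 hu.2]
        simp
      rw [h1.fderiv_eq]
      have h4 : HasFDerivAt (fun u => q.2 (fderiv ℂ h u (Pi.single q.1 1)))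
          ((q.2.comp (ContinuousLinearMap.apply ℂ V (Pi.single q.1 (1 : ℂ)))).comp
            (fderiv ℂ (fderiv ℂ h) z)) z := by
        have h5 : HasFDerivAt (fderiv ℂ h) (fderiv ℂ (fderiv ℂ h) z) z :=
          hh.fderiv.differentiableAt.hasFDerivAt
        have h6 : HasFDerivAt (q.2.comp (ContinuousLinearMap.apply ℂ V (Pi.single q.1 (1 : ℂ))))
          (q.2.comp (ContinuousLinearMap.apply ℂ V (Pi.single q.1 (1 : ℂ)))) (fderiv ℂ h z) :=
          ContinuousLinearMap.hasFDerivAt _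
        exact h6.comp z h5
      rw [h4.fderiv, ← hξ']
      rfl
    · have h1 : (fun u => minor (M b) h u * Λ b (1, (w u).compContinuousLinearMap fun _ => ℓ) /
          (minor (co m) h u * (ContinuousLinearMap.fst ℂ ℂ (H64.TD.Cub V))
            (1, (w u).compContinuousLinearMap fun _ => ℓ))) =ᶠ[𝓝 z]
          fun u => ContinuousMultilinearMap.apply ℂ (fun _ : Fin 3 => Vb) ℂ
            ![t.1, t.2.1, t.2.2] (w u) := by
        filter_upwards [hev] with u hu
        have h2 : M b = co m := by simp only [M, hkb, Sum.elim_inr]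
        have h3 : Λ b = (ContinuousMultilinearMap.apply ℂ (fun _ : Fin 3 => V) ℂ
          ![j t.1, j t.2.1, j t.2.2]).comp (ContinuousLinearMap.snd ℂ _ _) := by
          simp only [Λ, hkb, Sum.elim_inr]
        rw [h2, h3, minor_co hu.1 hu.2]
        show 1 * (w u) (fun i => ℓ (![j t.1, j t.2.1, j t.2.2] i)) / (1 * 1) =
          (w u) ![t.1, t.2.1, t.2.2]
        rw [one_mul, one_mul, div_one]
        congr 1
        funext i
        fin_cases i
        · exact hℓ _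
        · exact hℓ _
        · exact hℓ _
      rw [h1.fderiv_eq]
      have h4 : HasFDerivAt (fun u => ContinuousMultilinearMap.apply ℂ (fun _ : Fin 3 => Vb) ℂ
            ![t.1, t.2.1, t.2.2] (w u))
          ((ContinuousMultilinearMap.apply ℂ (fun _ : Fin 3 => Vb) ℂ
            ![t.1, t.2.1, t.2.2]).comp (fderiv ℂ w z)) z :=
        (ContinuousMultilinearMap.apply ℂ (fun _ : Fin 3 => Vb) ℂ
            ![t.1, t.2.1, t.2.2]).hasFDerivAt.comp z hw.hasFDerivAt
      rw [h4.fderiv, ← hξ']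
      rfl

/-- **(G2)** the rank of the quotients of the minors is at most the rank of the Gauss map. -/
theorem minor_zero {h : Cm d → V} {z ξ : Cm d} (hh : AnalyticAt ℂ h z)
    (hξ : fderiv ℂ (fderiv ℂ h) z ξ = 0) (m : Fin d → (V →L[ℂ] ℂ)) :
    fderiv ℂ (minor m h) z ξ = 0 := by
  let Dm : (Cm d →L[ℂ] V) → ℂ := fun T => (Matrix.of fun a b => m a (T (Pi.single b 1))).det
  have h1 : minor m h = Dm ∘ fderiv ℂ h := rfl
  have h2 : Differentiable ℂ Dm := by
    intro T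
    have h3 : Dm = fun T => ∑ σ : Equiv.Perm (Fin d), (Equiv.Perm.sign σ : ℂ) *
        ∏ i, m (σ i) (T (Pi.single i 1)) := by
      funext T
      simp only [Dm, Matrix.det_apply', Matrix.of_apply]
    rw [h3]
    fun_prop
  rw [h1, fderiv_comp (x := z) (h2 _) hh.fderiv.differentiableAt]
  show fderiv ℂ Dm (fderiv ℂ h z) (fderiv ℂ (fderiv ℂ h) z ξ) = 0
  rw [hξ, map_zero]

end alg

end Vale.Agent.P281.H349.UK
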