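import Vale.Agent.P281.H349.UK.Prop
import Vale.Agent.P281.H349.O.Flat

/-!
# P281, project T-UD (helper349, block UK): flat coordinates of the fibre
-/

open Set Filter Metric Vale.Agent.P281
open Vale.Agent.P281.H64 (IsProperFibration)
open Vale.Agent.P281.H64.TD (Cub)
open scoped Topology ContDiff Manifold

set_option linter.all false

noncomputable section

namespace Vale.Agent.P281.H349.UK

variable {p d : ℕ} {X Y : Type} [TopologicalSpace X] [ChartedSpace (Cm (p + d)) X]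
  [TopologicalSpace Y] [ChartedSpace (Cm p) Y]
  {V : Type} [NormedAddCommGroup V] [InnerProductSpace ℂ V] [FiniteDimensional ℂ V]
  {f : X → Y} {S : Set Y}
  [IsManifold 𝓘(ℂ, Cm (p + d)) ω X] [IsManifold 𝓘(ℂ, Cm p) ω Y]

/-- local charts of the fibres -/
theorem fib_charts (hf : ContMDiff 𝓘(ℂ, Cm (p + d)) 𝓘(ℂ, Cm p) ω f)
    (hp : IsProperFibration (n := p + d) (p := p) f S) {y : Y} (hy : y ∉ S) :
    ∀ x ∈ f ⁻¹' {y}, ∃ (Q : Cm d → X) (ζ : X → Cm d),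
      ContMDiffAt 𝓘(ℂ, Cm d) 𝓘(ℂ, Cm (p + d)) ω Q (ζ x) ∧
      Q (ζ x) = x ∧ ContMDiffAt 𝓘(ℂ, Cm (p + d)) 𝓘(ℂ, Cm d) ω ζ x ∧
      ∀ᶠ x' in 𝓝 x, x' ∈ f ⁻¹' {y} → Q (ζ x') = x' := by
  intro x hx
  have hxy : f x = y := hx
  obtain ⟨c, hxc, hc⟩ := H152.K.exists_prodChart (d := d) hf (chart_mem_atlas (Cm p) (f x))
    (mem_chart_source _ _) (hp.submersive x (by rw [hxy]; exact hy))
  refine ⟨fun z => c.symm ((c x).1, z), fun x' => (c x').2, slice_hol' hc (c.map_source hxc),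
    c.left_inv hxc, ?_, ?_⟩
  · have h1 : ContMDiffAt 𝓘(ℂ, Cm (p + d)) 𝓘(ℂ, Cm p × Cm d) ω c x :=
      (hc.hol x hxc).contMDiffAt (c.open_source.mem_nhds hxc)
    have h2 : ContMDiffAt 𝓘(ℂ, Cm p × Cm d) 𝓘(ℂ, Cm d) ω (Prod.snd : Cm p × Cm d → Cm d) (c x) :=
      contDiffAt_snd.contMDiffAt
    exact ContMDiffAt.comp (g := (Prod.snd : Cm p × Cm d → Cm d)) x h2 h1
  · filter_upwards [c.open_source.mem_nhds hxc] with x' h1 h2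
    exact fib_eq hc hxc h1 (by rw [hxy]; exact h2)

/-- **flat coordinates of the fibre** -/
theorem exists_flatQ (hf : ContMDiff 𝓘(ℂ, Cm (p + d)) 𝓘(ℂ, Cm p) ω f) {x₀ : X}
    (hs : Function.Surjective (mfderiv 𝓘(ℂ, Cm (p + d)) 𝓘(ℂ, Cm p) f x₀)) {β : X → V}
    (hβ : ContMDiffAt 𝓘(ℂ, Cm (p + d)) 𝓘(ℂ, V) ω β x₀)
    (himm : ∀ ξ : Cm (p + d), mfderiv 𝓘(ℂ, Cm (p + d)) 𝓘(ℂ, Cm p) f x₀ ξ = 0 →
      mfderiv 𝓘(ℂ, Cm (p + d)) 𝓘(ℂ, V) β x₀ ξ = 0 → ξ = 0) {N : Set X} (hN : N ∈ 𝓝 x₀) :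
    ∃ (m : V →L[ℂ] Cm d) (q : Cm d → X) (ε : ℝ), 0 < ε ∧ q (m (β x₀)) = x₀ ∧
      ∀ z ∈ ball (m (β x₀)) ε, ContMDiffAt 𝓘(ℂ, Cm d) 𝓘(ℂ, Cm (p + d)) ω q z ∧
        AnalyticAt ℂ (fun z => β (q z)) z ∧
        f (q z) = f x₀ ∧ q z ∈ N ∧ m (β (q z)) = z ∧
        ContMDiffAt 𝓘(ℂ, Cm (p + d)) 𝓘(ℂ, V) ω β (q z) ∧
        ∀ᶠ x in 𝓝 (q z), f x = f x₀ → q (m (β x)) = x := by
  obtain ⟨c, hxc, hc⟩ := H152.K.exists_prodChart (d := d) hf (chart_mem_atlas (Cm p) (f x₀))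
    (mem_chart_source _ _) hs
  set Q : Cm d → X := fun z => c.symm ((c x₀).1, z) with hQ
  have hβn : ∀ᶠ x in 𝓝 x₀, ContMDiffAt 𝓘(ℂ, Cm (p + d)) 𝓘(ℂ, V) ω β x :=
    (contMDiffAt_iff_contMDiffAt_nhds (by simp)).1 hβ
  obtain ⟨N', hN', hN'o, hxN'⟩ := _root_.eventually_nhds_iff.1 ((show ∀ᶠ x in 𝓝 x₀, x ∈ N from hN).and hβn)
  set Oz : Set (Cm d) := (fun z : Cm d => ((c x₀).1, z)) ⁻¹' (c.target ∩ c.symm ⁻¹' N') with hOz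
  have hOo : IsOpen Oz := (c.isOpen_inter_preimage_symm hN'o).preimage (by fun_prop)
  have hzO : (c x₀).2 ∈ Oz := by
    refine ⟨c.map_source hxc, ?_⟩
    show c.symm (c x₀) ∈ N'
    rw [c.left_inv hxc]
    exact hxN'
  have hQx : Q (c x₀).2 = x₀ := c.left_inv hxc
  have hQhol : ∀ z ∈ Oz, ContMDiffAt 𝓘(ℂ, Cm d) 𝓘(ℂ, Cm (p + d)) ω Q z := fun z hz =>
    slice_hol' hc hz.1
  have hβQ : ∀ z ∈ Oz, AnalyticAt ℂ (fun z => β (Q z)) z := by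
    intro z hz
    have h1 : ContMDiffAt 𝓘(ℂ, Cm d) 𝓘(ℂ, V) ω (fun z => β (Q z)) z :=
      ContMDiffAt.comp (g := β) z (hN' _ hz.2).2 (hQhol z hz)
    exact (contMDiffAt_iff_contDiffAt.1 h1).analyticAt
  -- the derivative at the base point
  have hinj : Function.Injective (fderiv ℂ (fun z => β (Q z)) (c x₀).2) := by
    rw [injective_iff_map_eq_zero]
    intro ξ hξ
    have hQd := (hQhol _ hzO).mdifferentiableAt (by simp)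
    have hβd : HasMFDerivAt 𝓘(ℂ, Cm (p + d)) 𝓘(ℂ, V) β (Q (c x₀).2)
        (mfderiv 𝓘(ℂ, Cm (p + d)) 𝓘(ℂ, V) β (Q (c x₀).2)) :=
      ((hN' _ hzO.2).2.mdifferentiableAt (by simp)).hasMFDerivAt
    have h1 : HasMFDerivAt 𝓘(ℂ, Cm d) 𝓘(ℂ, V) (fun z => β (Q z)) (c x₀).2
        ((mfderiv 𝓘(ℂ, Cm (p + d)) 𝓘(ℂ, V) β (Q (c x₀).2)).comp
          (mfderiv 𝓘(ℂ, Cm d) 𝓘(ℂ, Cm (p + d)) Q (c x₀).2)) :=
      HasMFDerivAt.comp (g := β) (f := Q) _ hβd hQd.hasMFDerivAt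
    rw [← mfderiv_eq_fderiv, h1.mfderiv] at hξ
    have h2 : HasMFDerivAt 𝓘(ℂ, Cm d) 𝓘(ℂ, Cm p) (f ∘ Q) (c x₀).2
        ((mfderiv 𝓘(ℂ, Cm (p + d)) 𝓘(ℂ, Cm p) f (Q (c x₀).2)).comp
          (mfderiv 𝓘(ℂ, Cm d) 𝓘(ℂ, Cm (p + d)) Q (c x₀).2)) :=
      ((hf _).mdifferentiableAt (by simp)).hasMFDerivAt.comp _ hQd.hasMFDerivAt
    have h3 : (f ∘ Q) =ᶠ[𝓝 (c x₀).2] fun _ => f x₀ := by
      filter_upwards [hOo.mem_nhds hzO] with z hz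
      exact fib_mem hc hxc hz.1
    have h4 := (h2.congr_of_eventuallyEq h3.symm).mfderiv
    have h5 : mfderiv 𝓘(ℂ, Cm (p + d)) 𝓘(ℂ, Cm p) f (Q (c x₀).2)
        (mfderiv 𝓘(ℂ, Cm d) 𝓘(ℂ, Cm (p + d)) Q (c x₀).2 ξ) = 0 := by
      have h6 : mfderiv 𝓘(ℂ, Cm d) 𝓘(ℂ, Cm p) (fun _ : Cm d => f x₀) (c x₀).2 = 0 := mfderiv_const
      rw [h6] at h4
      exact (congrArg (fun L : Cm d →L[ℂ] Cm p => L ξ) h4).symm
    rw [hQx] at h5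
    have h6 : mfderiv 𝓘(ℂ, Cm (p + d)) 𝓘(ℂ, V) β x₀
        (mfderiv 𝓘(ℂ, Cm d) 𝓘(ℂ, Cm (p + d)) Q (c x₀).2 ξ) = 0 := by
      have h7 : mfderiv 𝓘(ℂ, Cm (p + d)) 𝓘(ℂ, V) β (Q (c x₀).2)
        (mfderiv 𝓘(ℂ, Cm d) 𝓘(ℂ, Cm (p + d)) Q (c x₀).2 ξ) = 0 := hξ
      rwa [hQx] at h7
    have h7 := himm _ h5 h6
    -- `Q` is an immersion
    have h8 : (fun z => (c (Q z)).2) =ᶠ[𝓝 (c x₀).2] id := by
      filter_upwards [hOo.mem_nhds hzO] with z hz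
      show (c (c.symm ((c x₀).1, z))).2 = z
      rw [c.right_inv hz.1]
    have h9 : ContMDiffAt 𝓘(ℂ, Cm (p + d)) 𝓘(ℂ, Cm d) ω (fun x => (c x).2) (Q (c x₀).2) := by
      rw [hQx]
      have h1 : ContMDiffAt 𝓘(ℂ, Cm (p + d)) 𝓘(ℂ, Cm p × Cm d) ω c x₀ :=
        (hc.hol x₀ hxc).contMDiffAt (c.open_source.mem_nhds hxc)
      exact ContMDiffAt.comp (g := (Prod.snd : Cm p × Cm d → Cm d)) x₀
        contDiffAt_snd.contMDiffAt h1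
    have h10 := (((h9.mdifferentiableAt (by simp)).hasMFDerivAt.comp _
      hQd.hasMFDerivAt).congr_of_eventuallyEq h8.symm).mfderiv
    rw [mfderiv_id] at h10
    have h11 : ξ = mfderiv 𝓘(ℂ, Cm (p + d)) 𝓘(ℂ, Cm d) (fun x => (c x).2) (Q (c x₀).2)
        (mfderiv 𝓘(ℂ, Cm d) 𝓘(ℂ, Cm (p + d)) Q (c x₀).2 ξ) :=
      congrArg (fun L : Cm d →L[ℂ] Cm d => L ξ) h10
    rw [h11]
    have h12 : (mfderiv 𝓘(ℂ, Cm d) 𝓘(ℂ, Cm (p + d)) Q (c x₀).2 ξ : Cm (p + d)) = 0 := h7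
    exact (congrArg (mfderiv 𝓘(ℂ, Cm (p + d)) 𝓘(ℂ, Cm d) (fun x => (c x).2) (Q (c x₀).2))
      h12).trans (map_zero _)
  obtain ⟨m₀, hm₀⟩ := LinearMap.exists_leftInverse_of_injective
    (fderiv ℂ (fun z => β (Q z)) (c x₀).2 : Cm d →ₗ[ℂ] V) (LinearMap.ker_eq_bot.2 hinj)
  let m : V →L[ℂ] Cm d := m₀.toContinuousLinearMap
  have hm : ∀ ξ, m (fderiv ℂ (fun z => β (Q z)) (c x₀).2 ξ) = ξ := fun ξ =>
    LinearMap.congr_fun hm₀ ξ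
  -- the flat chart
  set h1 : Cm d → Cm d × V := fun z => (z, β (Q z)) with hh1
  have hh1A : ∀ z ∈ Oz, AnalyticAt ℂ h1 z := fun z hz => analyticAt_id.prod (hβQ z hz)
  let φ : OpenPartialHomeomorph (Cm d) (Cm d) := OpenPartialHomeomorph.ofSet Oz hOo
  obtain ⟨ψ₀, hψ₀, hzψ₀⟩ := H349.O.flat_of (h := h1) φ (fun z hz => hh1A z hz) (e₀ := (c x₀).2) hzO
    (m.comp (ContinuousLinearMap.snd ℂ (Cm d) V)) (fun ξ hξ => by
      have h2 : HasFDerivAt h1 ((ContinuousLinearMap.id ℂ (Cm d)).prod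
          (fderiv ℂ (fun z => β (Q z)) (c x₀).2)) (c x₀).2 :=
        (hasFDerivAt_id _).prodMk (hβQ _ hzO).differentiableAt.hasFDerivAt
      have h3 : fderiv ℂ h1 (c x₀).2 ξ = (ξ, fderiv ℂ (fun z => β (Q z)) (c x₀).2 ξ) := by
        rw [h2.fderiv]; rfl
      have h4 : (m.comp (ContinuousLinearMap.snd ℂ (Cm d) V)) (fderiv ℂ h1 (c x₀).2 ξ) = 0 := hξ
      rw [h3] at h4
      have h5 : m (fderiv ℂ (fun z => β (Q z)) (c x₀).2 ξ) = 0 := h4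
      rwa [hm] at h5)
  set ψ := ψ₀.restrOpen Oz hOo with hψ
  have hψs : ψ.source = ψ₀.source ∩ Oz := ψ₀.restrOpen_source Oz hOo
  have hzψ : (c x₀).2 ∈ ψ.source := by rw [hψs]; exact ⟨hzψ₀, hzO⟩
  have hψe : ∀ e ∈ ψ.source, ψ e = m (β (Q e)) := by
    intro e he
    rw [hψs] at he
    exact hψ₀.eq e he.1
  have hz₀ : ψ (c x₀).2 = m (β x₀) := by rw [hψe _ hzψ, hQx]
  have hψt : ∀ z ∈ ψ.target, z ∈ ψ₀.target ∧ ψ.symm z ∈ Oz ∧ ψ.symm z = ψ₀.symm z := by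
    intro z hz
    have h2 := ψ.map_target hz
    rw [hψs] at h2
    refine ⟨?_, h2.2, rfl⟩
    have h3 : ψ₀ (ψ.symm z) = z := ψ.right_inv hz
    rw [← h3]
    exact ψ₀.map_source h2.1
  have hψA : ∀ z ∈ ψ.target, AnalyticAt ℂ ψ.symm z ∧ AnalyticAt ℂ (fun z => β (Q (ψ.symm z))) z := by
    intro z hz
    have h2 := hψ₀.an z (hψt z hz).1
    exact ⟨analyticAt_fst.comp h2, analyticAt_snd.comp h2⟩
  have hzt : m (β x₀) ∈ ψ.target := by rw [← hz₀]; exact ψ.map_source hzψ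
  obtain ⟨ε, hε, hball⟩ := Metric.isOpen_iff.1 ψ.open_target _ hzt
  refine ⟨m, fun z => Q (ψ.symm z), ε, hε, ?_, fun z hz => ?_⟩
  · show Q (ψ.symm (m (β x₀))) = x₀
    rw [← hz₀, ψ.left_inv hzψ, hQx]
  · have hzt := hball hz
    obtain ⟨h2, h3, h4⟩ := hψt z hzt
    have hes := ψ.map_target hzt
    refine ⟨?_, (hψA z hzt).2, fib_mem hc hxc h3.1, (hN' _ h3.2).1, ?_, (hN' _ h3.2).2, ?_⟩
    · exact ContMDiffAt.comp (g := Q) z (hQhol _ h3) (hψA z hzt).1.contDiffAt.contMDiffAt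
    · show m (β (Q (ψ.symm z))) = z
      rw [← hψe _ hes, ψ.right_inv hzt]
    · set e := ψ.symm z with he
      have hQe : Q e ∈ c.source := c.map_target h3.1
      have hce : (c (Q e)).2 = e := by
        show (c (c.symm ((c x₀).1, e))).2 = e
        rw [c.right_inv h3.1]
      have h5 : ContinuousAt (fun x => (c x).2) (Q e) :=
        continuous_snd.continuousAt.comp (c.continuousAt hQe)
      have h6 : ∀ᶠ x in 𝓝 (Q e), (c x).2 ∈ ψ.source :=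
        h5.eventually (p := fun e => e ∈ ψ.source) (by
          show ∀ᶠ y in 𝓝 (c (Q e)).2, y ∈ ψ.source
          rw [hce]
          exact ψ.open_source.mem_nhds hes)
      filter_upwards [c.open_source.mem_nhds hQe, h6] with x h7 h8 h9
      have h10 : Q (c x).2 = x := fib_eq hc hxc h7 h9
      have h11 := hψe _ h8
      rw [h10] at h11
      show Q (ψ.symm (m (β x))) = x
      rw [← h11, ψ.left_inv h8, h10]

end Vale.Agent.P281.H349.UK
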