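import Vale.Agent.P281.H349.UK.Sec

/-!
# P281, project T-UD (helper349, block UK): the Kodaira dimension of the fibre
-/

open Set Filter Metric Vale.Agent.P281 Vale.Agent.P281.H713
open Vale.Agent.P281.MF Vale.Agent.P281.ISO
open Vale.Agent.P281.H713.TZ Vale.Agent.P281.H64
open scoped Topology ContDiff Manifold

set_option linter.all false

noncomputable section

namespace Vale.Agent.P281.H349.UK

open Vale.Agent.P281.H349.D (IsThird cocompact eq_ne eq_hol)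

/-- The data near a point of the submanifold `B` off the divisor `Δ`. -/
structure OrbDat (n : ℕ) {d nb : ℕ} {X : Type} [TopologicalSpace X] [ChartedSpace (Cm n) X]
    {V Vb : Type} [NormedAddCommGroup V] [NormedSpace ℂ V] [NormedAddCommGroup Vb]
    [NormedSpace ℂ Vb] (B : Set X) (Δ : Set X → ℝ) (s : ℕ) (z₀ : Cm d) (ε : ℝ)
    (W : Cm d → Vb → X) (J : Vb →L[ℂ] Cm d) (P : (Fin nb → ℝ) ≃L[ℝ] Vb) (h : Cm d → V)
    (g : Cm d → Vb →L[ℂ] Vb →L[ℂ] Vb →L[ℂ] ℂ) : Prop extends OrbC n B z₀ ε W J where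
  pos : 0 < ε
  inj : Function.Injective J
  off : ∀ z ∈ ball z₀ ε, ∀ D, Δ D ≠ 0 → W z 0 ∉ D
  per : ∀ j : Fin nb, ∀ z ∈ ball z₀ ε, ∀ v, W z (v + P (Pi.single j 1)) = W z v
  han : AnalyticOnNhd ℂ h (ball z₀ ε)
  gan : AnalyticOnNhd ℂ g (ball z₀ ε)
  tan : ∀ z ∈ ball z₀ ε, ∀ v, fderiv ℂ (fderiv ℂ h) z (J v) = 0
  third : ∀ z ∈ ball z₀ ε, ∃ φ, IsThird {v | ∃ D, Δ D ≠ 0 ∧ W z v ∈ D} φ ∧
    ∀ᶠ v in 𝓝 0, φ v = g (z + J v)
  rank : ∀ z ∈ ball z₀ ε, d ≤ s + Module.finrank ℂ (ND h (fun z => g z) z)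
  gauss : ∀ U : Set (Cm d), IsOpen U → (U ∩ ball z₀ ε).Nonempty → ∃ z ∈ U ∩ ball z₀ ε,
    d ≤ Module.finrank ℂ (LinearMap.range
      (fderiv ℂ (fderiv ℂ h) z : Cm d →ₗ[ℂ] (Cm d →L[ℂ] V))) + Module.finrank ℂ Vb

variable {n d nb : ℕ} {X F : Type} [TopologicalSpace X] [ChartedSpace (Cm n) X]
  [TopologicalSpace F] [ChartedSpace (Cm d) F]
  {V Vb : Type} [NormedAddCommGroup V] [NormedSpace ℂ V] [FiniteDimensional ℂ V]
  [NormedAddCommGroup Vb] [NormedSpace ℂ Vb] [FiniteDimensional ℂ Vb]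

/-- **Block UK**, in the letters of the orbits. -/
theorem kodR_orb [T2Space X] [IsManifold 𝓘(ℂ, Cm n) ω X] [T2Space F] [CompactSpace F]
    [IsManifold 𝓘(ℂ, Cm d) ω F] {B : Set X} {i : F → X} {Δ : Set X → ℝ} {s : ℕ}
    (hB : ∀ x ∈ B, ∃ (Q : Cm d → X) (ζ : X → Cm d), ContMDiffAt 𝓘(ℂ, Cm d) 𝓘(ℂ, Cm n) ω Q (ζ x) ∧
      Q (ζ x) = x ∧ ContMDiffAt 𝓘(ℂ, Cm n) 𝓘(ℂ, Cm d) ω ζ x ∧
      ∀ᶠ x' in 𝓝 x, x' ∈ B → Q (ζ x') = x')
    (ihol : ContMDiff 𝓘(ℂ, Cm d) 𝓘(ℂ, Cm n) ω i)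
    (imm : ∀ x, Function.Injective (mfderiv 𝓘(ℂ, Cm d) 𝓘(ℂ, Cm n) i x))
    (hi : ∀ x, i x ∈ B)
    (hdat : ∀ x₀ ∈ B, (∀ D, Δ D ≠ 0 → x₀ ∉ D) → ∃ (z₀ : Cm d) (ε : ℝ) (W : Cm d → Vb → X)
      (J : Vb →L[ℂ] Cm d) (P : (Fin nb → ℝ) ≃L[ℝ] Vb) (h : Cm d → V)
      (g : Cm d → Vb →L[ℂ] Vb →L[ℂ] Vb →L[ℂ] ℂ),
      OrbDat n B Δ s z₀ ε W J P h g ∧ W z₀ 0 = x₀) :
    TZ.S.kodR (Cm n) (Cm d) i Δ ≤ ((s : ℕ∞) : WithBot ℕ∞) := by
  classical
  unfold TZ.S.kodR Vale.Agent.P281.J.kod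
  refine iSup₂_le ?_
  rintro j ⟨m, k, S, t₀, hm, hk, hs, hz, hs0, hsu⟩
  have hkΔ : ∀ D, k D ≠ 0 → Δ D ≠ 0 := by
    intro D h1 h2
    have h3 := hk D
    rw [h2, mul_zero] at h3
    exact h1 (by exact_mod_cast h3)
  have hΔk : ∀ D, Δ D ≠ 0 → k D ≠ 0 := by
    intro D h1 h2
    have h3 := hk D
    rw [h2] at h3
    have h4 : (m : ℝ) * Δ D = 0 := by rw [← h3]; simp
    rcases mul_eq_zero.1 h4 with h5 | h5
    · exact hm.ne' (by exact_mod_cast h5)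
    · exact h1 h5
  obtain ⟨z₀, ε, W, J, P, h, g, hO, hx₀⟩ := hdat (i t₀) (hi t₀) (by
    intro D hD' h1
    obtain ⟨g, ⟨e, he, hge⟩, hg0⟩ := hz D (hΔk D hD')
    rw [hge.self_of_nhds] at hg0
    exact hg0 ((eq_ne he).2 h1))
  obtain ⟨Φ, H⟩ := hO.toOrbC.exists_lift hO.pos hB ihol imm hi (t₀ := t₀) hx₀.symm
  have hz₀ : z₀ ∈ ball z₀ ε := mem_ball_self hO.pos
  -- the group of periods
  let L : AddSubgroup Vb :=
    { carrier := {l | ∀ z ∈ ball z₀ ε, ∀ v, Φ z (v + l) = Φ z v}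
      zero_mem' := fun z hz v => by rw [add_zero]
      add_mem' := fun {a b} ha hb z hz v => by rw [← add_assoc, hb z hz, ha z hz]
      neg_mem' := fun {a} ha z hz v => by
        have := ha z hz (v + -a)
        rw [neg_add_cancel_right] at this
        exact this.symm }
  have hLm : ∀ l, l ∈ L ↔ ∀ z ∈ ball z₀ ε, ∀ v, Φ z (v + l) = Φ z v := fun l => Iff.rfl
  have hLj : ∀ j, ∃ m : ℕ, 0 < m ∧ (m : ℂ) • P (Pi.single j 1) ∈ L := by
    intro j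
    obtain ⟨N', hN', hN''⟩ := H.per (P (Pi.single j 1)) (hO.per j)
    exact ⟨N', hN', hN''⟩
  obtain ⟨C, hC, hCL⟩ := cocompact P L hLj
  have hWL : ∀ l ∈ L, ∀ z ∈ ball z₀ ε, ∀ v, W z (v + l) = W z v := by
    intro l hl z hz v
    rw [← H.lift z hz, (hLm l).1 hl z hz, H.lift z hz]
  have hSA : ∀ b, ∀ z ∈ ball z₀ ε, ∀ v, (∀ D, Δ D ≠ 0 → W z v ∉ D) →
      AnalyticAt ℂ (fun p : Cm d × Vb => SS (S b) m Φ p.1 p.2) (z, v) := fun b z hz v hv =>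
    H.SS_analytic ihol (hs b) hz fun D hD => hv D (hkΔ D hD)
  have hle : j ≤ s := by
    refine rank_core hO.pos hO.inj hO.han hO.gan hO.tan
      (D := fun z => {v | ∃ D, Δ D ≠ 0 ∧ W z v ∈ D}) ?_ hC hCL ?_ hO.third hO.rank hO.gauss
      (S := fun b z v => SS (S b) m Φ z v) ?_ ?_ ?_ ?_ ?_ ?_
    · rintro z hz ⟨D, hD, h1⟩
      exact hO.off z hz D hD h1
    · rintro z hz l hl v ⟨D, hD, h1⟩
      exact ⟨D, hD, by rw [hWL l hl z hz]; exact h1⟩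
    · intro b z hz v hv
      have h1 := hSA b z hz v (fun D hD h2 => hv ⟨D, hD, h2⟩)
      have h2 : AnalyticAt ℂ (fun v : Vb => ((z, v) : Cm d × Vb)) v := by fun_prop
      exact AnalyticAt.comp (g := fun p : Cm d × Vb => SS (S b) m Φ p.1 p.2)
        (f := fun v : Vb => ((z, v) : Cm d × Vb)) h1 h2
    · intro b z hz
      have h1 := hSA b z hz 0 (fun D hD => hO.off z hz D hD)
      have h2 : AnalyticAt ℂ (fun z : Cm d => ((z, 0) : Cm d × Vb)) z := by fun_prop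
      exact AnalyticAt.comp (g := fun p : Cm d × Vb => SS (S b) m Φ p.1 p.2)
        (f := fun z : Cm d => ((z, 0) : Cm d × Vb)) h1 h2
    · intro b z hz l hl v hv
      exact H.SS_per ((hLm l).1 hl) hz v
    · intro b z hz
      exact H.SS_loc hO.toOrbC ihol imm hz
    · show S 0 (Φ z₀ 0) * (dM (Cm d) (Cm d) (fun z => Φ z 0) z₀).det ^ m ≠ 0
      rw [H.base]
      exact mul_ne_zero hs0 (pow_ne_zero _ (H.imm hO.toOrbC ihol hz₀ 0).2)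
    · -- the quotients
      have hdiff : ∀ b : Fin j, MDifferentiableAt 𝓘(ℂ, Cm d) 𝓘(ℂ, ℂ)
          (fun w => S (b + 1) w / S 0 w) t₀ := by
        intro b
        by_contra hcon
        obtain ⟨ξ, hξ⟩ := hsu (Pi.single b 1)
        have h1 := congrFun hξ b
        have h2 : Vale.Agent.P281.J.dif (Cm d) (fun w => S (b + 1) w / S 0 w) t₀ = 0 :=
          mfderiv_zero_of_not_mdifferentiableAt hcon
        simp only [h2, Pi.single_eq_same] at h1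
        exact zero_ne_one h1
      have hratio : ∀ b : Fin j, (fun z => SS (S (b + 1)) m Φ z 0 / SS (S 0) m Φ z 0) =ᶠ[𝓝 z₀]
          (fun w => S (b + 1) w / S 0 w) ∘ fun z => Φ z 0 := by
        intro b
        filter_upwards [isOpen_ball.mem_nhds hz₀] with z hz
        show S (b + 1) (Φ z 0) * (dM (Cm d) (Cm d) (fun z => Φ z 0) z).det ^ m /
          (S 0 (Φ z 0) * (dM (Cm d) (Cm d) (fun z => Φ z 0) z).det ^ m) = _
        rw [mul_div_mul_right _ _ (pow_ne_zero _ (H.imm hO.toOrbC ihol hz 0).2)]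
        rfl
      have hI := H.imm hO.toOrbC ihol hz₀ 0
      have hbij : Function.Surjective (dM (Cm d) (Cm d) (fun z => Φ z 0) z₀) :=
        (H308.Bir.bij_of_det_ne hI.2).2
      intro y
      obtain ⟨ξ, hξ⟩ := hsu y
      obtain ⟨η, hη⟩ := hbij ξ
      refine ⟨η, ?_⟩
      rw [← hξ]
      funext b
      show fderiv ℂ (fun z => SS (S (b + 1)) m Φ z 0 / SS (S 0) m Φ z 0) z₀ η = _
      rw [(hratio b).fderiv_eq]
      have h0 : HasMFDerivAt 𝓘(ℂ, Cm d) 𝓘(ℂ, ℂ) (fun w => S (b + 1) w / S 0 w) (Φ z₀ 0)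
          (Vale.Agent.P281.J.dif (Cm d) (fun w => S (b + 1) w / S 0 w) t₀) := by
        rw [H.base]
        exact (hdiff b).hasMFDerivAt
      have h1 : HasMFDerivAt 𝓘(ℂ, Cm d) 𝓘(ℂ, ℂ) ((fun w => S (b + 1) w / S 0 w) ∘
          fun z => Φ z 0) z₀
          ((Vale.Agent.P281.J.dif (Cm d) (fun w => S (b + 1) w / S 0 w) t₀).comp
            (dM (Cm d) (Cm d) (fun z => Φ z 0) z₀)) :=
        h0.comp z₀ (hI.1.mdifferentiableAt (by simp)).hasMFDerivAt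
      have h2 : HasFDerivAt ((fun w => S (b + 1) w / S 0 w) ∘ fun z => Φ z 0)
          ((Vale.Agent.P281.J.dif (Cm d) (fun w => S (b + 1) w / S 0 w) t₀).comp
            (dM (Cm d) (Cm d) (fun z => Φ z 0) z₀)) z₀ := h1.hasFDerivAt
      rw [h2.fderiv]
      show Vale.Agent.P281.J.dif (Cm d) (fun w => S (b + 1) w / S 0 w) t₀
        (dM (Cm d) (Cm d) (fun z => Φ z 0) z₀ η) = _
      rw [hη]
  exact_mod_cast hle

end Vale.Agent.P281.H349.UK
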