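import Vale.Agent.P281.H303.UD.Spec
import Vale.Agent.P281.H349.UK.Flat
import Vale.Agent.P281.H349.UK.Kod

/-!
# P281, project T-UD (helper349, block UK): the data of the orbits from `IsOrbM` and `IsOrbD`
-/

open Set Filter Metric MeasureTheory Vale.Agent.P281 Vale.Agent.P281.H713
open Vale.Agent.P281.MF Vale.Agent.P281.ISO
open Vale.Agent.P281.H64
open Vale.Agent.P281.H64.TU (Tame)
open Vale.Agent.P281.H64.TD (Cub zr)
open Vale.Agent.P281.H303.UD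
open scoped Topology ContDiff Manifold

set_option linter.all false

noncomputable section

namespace Vale.Agent.P281.H349.UK

open Vale.Agent.P281.H349.D (IsThird)

variable {p d : ℕ} {X Y : Type} [TopologicalSpace X] [ChartedSpace (Cm (p + d)) X]
  [TopologicalSpace Y] [ChartedSpace (Cm p) Y]
  {V : Type} [NormedAddCommGroup V] [InnerProductSpace ℂ V] [FiniteDimensional ℂ V]
  {Vb : Type} [NormedAddCommGroup Vb] [InnerProductSpace ℂ Vb] [FiniteDimensional ℂ Vb]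
  {n nb : ℕ} {T : Tame (Fin d → ℂ) X} {f : X → Y} {S : Set Y}
  {Q : (Fin n → ℝ) → (Fin n → ℝ) → ℝ} {QB : (Fin nb → ℝ) → (Fin nb → ℝ) → ℝ} {ι : Type}
  {U : ι → Set Y} {π : ι → Y → ((Fin n → ℝ) ≃L[ℝ] V)} {ϖ : ι → Y → ((Fin nb → ℝ) ≃L[ℝ] Vb)}
  {j : ι → Y → Vb →L[ℂ] V} {ℓ : ι → Y → V →L[ℂ] Vb} {L : ι → X → (X → V) → Prop}
  {u : ι → X → (X → V) → Vb → X} {𝒜 : Set (Set X)}
  {Lw : ι → X → (X → V) → (X → Cub Vb) → Prop}

theorem u_tendsto (hM : IsOrbM (Cm (p + d)) (Cm p) d T f S Q QB U π ϖ j ℓ L u) {a : ι} {x : X}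
    {β : X → V} (hL : L a x β) :
    Tendsto (fun z : X × Vb => u a z.1 β z.2) (𝓝 (x, 0)) (𝓝 x) := by
  have h1 := (hM.uhol a x β hL 0).continuousAt
  rw [ContinuousAt] at h1
  have h2 : u a ((x, (0 : Vb)) : X × Vb).1 β ((x, (0 : Vb)) : X × Vb).2 = x := hM.zero a x β hL
  rwa [h2] at h1

theorem beta_loc (hM : IsOrbM (Cm (p + d)) (Cm p) d T f S Q QB U π ϖ j ℓ L u) {a : ι} {x : X}
    {β : X → V} (hL : L a x β) : ∀ᶠ z : X × Vb in 𝓝 (x, 0),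
      β (u a z.1 β z.2) = β z.1 + j a (f z.1) z.2 := by
  obtain ⟨β', hL', -, hev⟩ := hM.trans a x β hL 0
  have h1 : Tendsto (fun z : X => ((z, 0) : X × Vb)) (𝓝 x) (𝓝 (x, 0)) :=
    (continuous_id.prodMk continuous_const).tendsto _
  have h2 : ∀ᶠ z in 𝓝 x, β' z = β z := by
    filter_upwards [h1.eventually hev, hM.near a x β hL] with z h3 h4
    have h5 : β' (u a z β 0) = β z + j a (f z) 0 := h3
    rwa [hM.zero a z β h4, map_zero, add_zero] at h5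
  filter_upwards [hev, (u_tendsto hM hL).eventually h2] with z h3 h4
  rw [← h4, h3]

theorem zr_single (k : Fin nb) : (zr (Pi.single k 1 : Fin nb → ℤ) : Fin nb → ℝ) =
    Pi.single k 1 := by
  funext k'
  by_cases hk : k' = k
  · subst hk; simp [zr]
  · simp [zr, hk]

variable [IsManifold 𝓘(ℂ, Cm (p + d)) ω X] [IsManifold 𝓘(ℂ, Cm p) ω Y]

/-- `w` is holomorphic off the divisor -/
theorem w_hol (hD : IsOrbD (Cm (p + d)) d T f S Q QB U π ϖ j ℓ L u 𝒜 Lw) (h𝒜 : 𝒜.Finite)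
    (hP : ∀ D ∈ 𝒜, J.IsPrime (Cm (p + d)) D) {a : ι} {x : X} {β : X → V} {w : X → Cub Vb}
    (hL : Lw a x β w) (hx : ∀ D ∈ 𝒜, x ∉ D) :
    ContMDiffAt 𝓘(ℂ, Cm (p + d)) 𝓘(ℂ, Cub Vb) ω w x := by
  classical
  have he : ∀ D : Set X, ∃ e : X → ℂ, D ∈ 𝒜 → J.IsLocalEq (Cm (p + d)) D e x := by
    intro D
    by_cases hD : D ∈ 𝒜
    · obtain ⟨g, hg⟩ := (hP D hD).2.1 x
      exact ⟨g, fun _ => hg⟩
    · exact ⟨fun _ => 0, fun h => absurd h hD⟩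
  choose e he using he
  obtain ⟨H, hH, hwH⟩ := hD.pole a x β w hL h𝒜.toFinset e
    (fun D hD => h𝒜.mem_toFinset.2 hD) fun D hD => he D (h𝒜.mem_toFinset.1 hD)
  have h1 : ContMDiffAt 𝓘(ℂ, Cm (p + d)) 𝓘(ℂ, ℂ) ω (fun z => (∏ D ∈ h𝒜.toFinset, e D z) ^ 3) x :=
    (contMDiffAt_finsetProd fun D hD => H349.D.eq_hol (he D (h𝒜.mem_toFinset.1 hD))).pow 3
  have h2 : (∏ D ∈ h𝒜.toFinset, e D x) ^ 3 ≠ 0 := by
    refine pow_ne_zero _ (Finset.prod_ne_zero_iff.2 fun D hD h3 => ?_)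
    have hD' := h𝒜.mem_toFinset.1 hD
    exact hx D hD' ((H349.D.eq_ne (he D hD')).1 h3)
  have h3 : ContMDiffAt 𝓘(ℂ, Cm (p + d)) 𝓘(ℂ, ℂ) ω
      (fun z => ((∏ D ∈ h𝒜.toFinset, e D z) ^ 3)⁻¹) x := by
    have h4 : ContMDiffAt 𝓘(ℂ, ℂ) 𝓘(ℂ, ℂ) ω (fun t : ℂ => t⁻¹) ((∏ D ∈ h𝒜.toFinset, e D x) ^ 3) :=
      (contDiffAt_inv ℂ h2).contMDiffAt
    exact ContMDiffAt.comp (g := fun t : ℂ => t⁻¹) x h4 h1
  refine (h3.smul hH).congr_of_eventuallyEq ?_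
  have h5 := H364.TD.eventually_off h𝒜 (fun D hD => (hP D hD).1) hx
  filter_upwards [hwH, h5, h1.continuousAt.eventually_ne h2] with z h6 h7 h8
  show w z = ((∏ D ∈ h𝒜.toFinset, e D z) ^ 3)⁻¹ • H z
  rw [← h6 h7, smul_smul, inv_mul_cancel₀ h8, one_smul]

/-- the flat coordinates `q` near `x₀` and the data on the fibre -/
structure FlatC (p : ℕ) {d : ℕ} {X Y : Type} [TopologicalSpace X] [ChartedSpace (Cm (p + d)) X]
    {V : Type} [NormedAddCommGroup V] [InnerProductSpace ℂ V] [FiniteDimensional ℂ V]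
    {Vb : Type} [NormedAddCommGroup Vb] [InnerProductSpace ℂ Vb] [FiniteDimensional ℂ Vb]
    {ι : Type} (f : X → Y) (L : ι → X → (X → V) → Prop) (𝒜 : Set (Set X))
    (Lw : ι → X → (X → V) → (X → Cub Vb) → Prop) (a : ι) (y : Y) (β : X → V) (w : X → Cub Vb)
    (m : V →L[ℂ] Cm d) (q : Cm d → X) (z₀ : Cm d) (ε : ℝ) : Prop where
  pos : 0 < ε
  hol : ∀ z ∈ ball z₀ ε, ContMDiffAt 𝓘(ℂ, Cm d) 𝓘(ℂ, Cm (p + d)) ω q z
  han : ∀ z ∈ ball z₀ ε, AnalyticAt ℂ (fun z => β (q z)) z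
  fib : ∀ z ∈ ball z₀ ε, f (q z) = y
  mem : ∀ z ∈ ball z₀ ε, L a (q z) β
  memw : ∀ z ∈ ball z₀ ε, Lw a (q z) β w
  off : ∀ z ∈ ball z₀ ε, ∀ D ∈ 𝒜, q z ∉ D
  right : ∀ z ∈ ball z₀ ε, m (β (q z)) = z
  left : ∀ z ∈ ball z₀ ε, ∀ᶠ x in 𝓝 (q z), f x = y → q (m (β x)) = x

theorem exists_flatC (hf : ContMDiff 𝓘(ℂ, Cm (p + d)) 𝓘(ℂ, Cm p) ω f)
    (hp : IsProperFibration (n := p + d) (p := p) f S)
    (hM : IsOrbM (Cm (p + d)) (Cm p) d T f S Q QB U π ϖ j ℓ L u)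
    (hD : IsOrbD (Cm (p + d)) d T f S Q QB U π ϖ j ℓ L u 𝒜 Lw) (h𝒜 : 𝒜.Finite)
    (hP : ∀ D ∈ 𝒜, J.IsPrime (Cm (p + d)) D) {a : ι} {y : Y} (hy : y ∈ U a) {x₀ : X}
    (hx₀ : f x₀ = y) (hoff : ∀ D ∈ 𝒜, x₀ ∉ D) : ∃ (β : X → V) (w : X → Cub Vb)
      (m : V →L[ℂ] Cm d) (q : Cm d → X) (z₀ : Cm d) (ε : ℝ),
      FlatC p f L 𝒜 Lw a y β w m q z₀ ε ∧ q z₀ = x₀ := by
  obtain ⟨β, hL⟩ := hM.lift a x₀ (by rw [hx₀]; exact hy)
  obtain ⟨w, hw⟩ := hD.lift a x₀ β hL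
  have hyS : y ∉ S := (hM.cover y).2 ⟨a, hy⟩
  have hN : ∀ᶠ x in 𝓝 x₀, L a x β ∧ Lw a x β w ∧ ∀ D ∈ 𝒜, x ∉ D := by
    filter_upwards [hM.near a x₀ β hL, hD.near a x₀ β w hw,
      H364.TD.eventually_off h𝒜 (fun D hD => (hP D hD).1) hoff] with x h1 h2 h3
    exact ⟨h1, h2, h3⟩
  obtain ⟨m, q, ε, hε, hq, hall⟩ := exists_flatQ hf (hp.submersive x₀ (by rw [hx₀]; exact hyS))
    (hM.liftHol a x₀ β hL) (hM.imm a x₀ β hL) hN
  rw [hx₀] at hall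
  exact ⟨β, w, m, q, m (β x₀), ε, ⟨hε, fun z hz => (hall z hz).1, fun z hz => (hall z hz).2.1,
    fun z hz => (hall z hz).2.2.1, fun z hz => (hall z hz).2.2.2.1.1,
    fun z hz => (hall z hz).2.2.2.1.2.1, fun z hz => (hall z hz).2.2.2.1.2.2,
    fun z hz => (hall z hz).2.2.2.2.1, fun z hz => (hall z hz).2.2.2.2.2.2⟩, hq⟩

variable {a : ι} {y : Y} {β : X → V} {w : X → Cub Vb} {m : V →L[ℂ] Cm d} {q : Cm d → X}
  {z₀ : Cm d} {ε : ℝ}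

/-- the orbits in flat coordinates -/
def WW (a : ι) (u : ι → X → (X → V) → Vb → X) (β : X → V) (q : Cm d → X) (z : Cm d) (v : Vb) : X :=
  u a (q z) β v

theorem FlatC.W_hol (H : FlatC p f L 𝒜 Lw a y β w m q z₀ ε)
    (hM : IsOrbM (Cm (p + d)) (Cm p) d T f S Q QB U π ϖ j ℓ L u) {z : Cm d}
    (hz : z ∈ ball z₀ ε) (v : Vb) : ContMDiffAt 𝓘(ℂ, Cm d × Vb) 𝓘(ℂ, Cm (p + d)) ω
      (fun t : Cm d × Vb => WW a u β q t.1 t.2) (z, v) := by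
  have h1 := hM.uhol a (q z) β (H.mem z hz) v
  have h2 : ContMDiffAt 𝓘(ℂ, Cm d × Vb) 𝓘(ℂ, Cm (p + d)) ω (fun t : Cm d × Vb => q t.1) (z, v) :=
    ContMDiffAt.comp (g := q) (f := fun t : Cm d × Vb => t.1) (z, v) (H.hol z hz)
      contDiffAt_fst.contMDiffAt
  have h3 : ContMDiffAt 𝓘(ℂ, Cm d × Vb) 𝓘(ℂ, Vb) ω (fun t : Cm d × Vb => t.2) (z, v) :=
    contDiffAt_snd.contMDiffAt
  exact ContMDiffAt.comp (g := fun z : X × Vb => u a z.1 β z.2)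
    (f := fun t : Cm d × Vb => ((q t.1, t.2) : X × Vb)) (z, v) h1 (h2.prodMk h3)

theorem FlatC.W_zero (H : FlatC p f L 𝒜 Lw a y β w m q z₀ ε)
    (hM : IsOrbM (Cm (p + d)) (Cm p) d T f S Q QB U π ϖ j ℓ L u) {z : Cm d}
    (hz : z ∈ ball z₀ ε) : WW a u β q z 0 = q z := hM.zero a (q z) β (H.mem z hz)

theorem FlatC.W_fib (H : FlatC p f L 𝒜 Lw a y β w m q z₀ ε)
    (hM : IsOrbM (Cm (p + d)) (Cm p) d T f S Q QB U π ϖ j ℓ L u) {z : Cm d}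
    (hz : z ∈ ball z₀ ε) (v : Vb) : f (WW a u β q z v) = y :=
  (hM.fib a (q z) β (H.mem z hz) v).trans (H.fib z hz)

theorem FlatC.tend (H : FlatC p f L 𝒜 Lw a y β w m q z₀ ε) {z : Cm d}
    (hz : z ∈ ball z₀ ε) (v : Vb) :
    Tendsto (fun t : Cm d × Vb => ((q t.1, t.2) : X × Vb)) (𝓝 (z, v)) (𝓝 (q z, v)) := by
  have h1 : ContinuousAt (fun t : Cm d × Vb => q t.1) (z, v) :=
    ContinuousAt.comp (g := q) (f := fun t : Cm d × Vb => t.1) (x := (z, v))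
      (H.hol z hz).continuousAt continuousAt_fst
  exact h1.prodMk_nhds continuousAt_snd

theorem FlatC.ball_ev (H : FlatC p f L 𝒜 Lw a y β w m q z₀ ε) {z : Cm d}
    (hz : z ∈ ball z₀ ε) (v : Vb) : ∀ᶠ t : Cm d × Vb in 𝓝 (z, v), t.1 ∈ ball z₀ ε :=
  continuousAt_fst.eventually (isOpen_ball.mem_nhds hz)

/-- **the translations in flat coordinates** -/
theorem FlatC.W_loc (H : FlatC p f L 𝒜 Lw a y β w m q z₀ ε)
    (hM : IsOrbM (Cm (p + d)) (Cm p) d T f S Q QB U π ϖ j ℓ L u) {z : Cm d}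
    (hz : z ∈ ball z₀ ε) : ∀ᶠ t : Cm d × Vb in 𝓝 (z, 0),
      WW a u β q t.1 t.2 = q (t.1 + m (j a y t.2)) ∧ t.1 + m (j a y t.2) ∈ ball z₀ ε ∧
      β (q (t.1 + m (j a y t.2))) = β (q t.1) + j a y t.2 := by
  have h1 := (H.tend hz 0).eventually (beta_loc hM (H.mem z hz))
  have h2 : Tendsto (fun t : Cm d × Vb => WW a u β q t.1 t.2) (𝓝 (z, 0)) (𝓝 (q z)) :=
    (u_tendsto hM (H.mem z hz)).comp (H.tend hz 0)
  have h3 : ∀ᶠ t : Cm d × Vb in 𝓝 (z, 0), t.1 + m (j a y t.2) ∈ ball z₀ ε := by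
    have h4 : ContinuousAt (fun t : Cm d × Vb => t.1 + m (j a y t.2)) (z, 0) := by fun_prop
    exact h4.eventually (isOpen_ball.mem_nhds (by simpa using hz))
  filter_upwards [h1, h2.eventually (H.left z hz), h3, H.ball_ev hz 0] with t h4 h5 h6 h7
  have h8 : β (WW a u β q t.1 t.2) = β (q t.1) + j a y t.2 := by
    have h9 : β (u a (q t.1) β t.2) = β (q t.1) + j a (f (q t.1)) t.2 := h4
    rw [H.fib _ h7] at h9
    exact h9
  have h10 : WW a u β q t.1 t.2 = q (t.1 + m (j a y t.2)) := by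
    have h11 := h5 (H.W_fib hM h7 t.2)
    rw [h8, map_add, H.right _ h7] at h11
    exact h11.symm
  refine ⟨h10, h6, ?_⟩
  rw [← h10, h8]

theorem FlatC.orbC (H : FlatC p f L 𝒜 Lw a y β w m q z₀ ε)
    (hM : IsOrbM (Cm (p + d)) (Cm p) d T f S Q QB U π ϖ j ℓ L u) :
    OrbC (p + d) (f ⁻¹' {y}) z₀ ε (WW a u β q) (m.comp (j a y)) where
  hol := fun z hz v => H.W_hol hM hz v
  mem := fun z hz v => H.W_fib hM hz v
  imm := by
    intro z hz v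
    obtain ⟨β', hL', -, hev⟩ := hM.trans a (q z) β (H.mem z hz) v
    have h1 : ∀ᶠ z' in 𝓝 z, β' (WW a u β q z' v) = β (q z') + j a y v := by
      have h2 : Tendsto (fun z' : Cm d => ((z', v) : Cm d × Vb)) (𝓝 z) (𝓝 (z, v)) :=
        (continuous_id.prodMk continuous_const).tendsto _
      filter_upwards [h2.eventually ((H.tend hz v).eventually hev),
        isOpen_ball.mem_nhds hz] with z' h3 h4
      have h5 : β' (u a (q z') β v) = β (q z') + j a (f (q z')) v := h3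
      rw [H.fib _ h4] at h5
      exact h5
    have hWd : ContMDiffAt 𝓘(ℂ, Cm d) 𝓘(ℂ, Cm (p + d)) ω (fun z => WW a u β q z v) z :=
      ContMDiffAt.comp (g := fun t : Cm d × Vb => WW a u β q t.1 t.2)
        (f := fun z : Cm d => ((z, v) : Cm d × Vb)) z (H.W_hol hM hz v)
        (ContDiffAt.contMDiffAt (by fun_prop))
    have hβd : ContMDiffAt 𝓘(ℂ, Cm (p + d)) 𝓘(ℂ, V) ω β' (WW a u β q z v) :=
      hM.liftHol a _ β' hL'
    have h2 : HasMFDerivAt 𝓘(ℂ, Cm d) 𝓘(ℂ, V) (β' ∘ fun z => WW a u β q z v) z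
        ((mfderiv 𝓘(ℂ, Cm (p + d)) 𝓘(ℂ, V) β' (WW a u β q z v)).comp
          (mfderiv 𝓘(ℂ, Cm d) 𝓘(ℂ, Cm (p + d)) (fun z => WW a u β q z v) z)) :=
      HasMFDerivAt.comp (g := β') (f := fun z => WW a u β q z v) z
        (hβd.mdifferentiableAt (by simp)).hasMFDerivAt (hWd.mdifferentiableAt (by simp)).hasMFDerivAt
    have h3 : HasMFDerivAt 𝓘(ℂ, Cm d) 𝓘(ℂ, V) (β' ∘ fun z => WW a u β q z v) z
        (fderiv ℂ (fun z => β (q z)) z) := by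
      have h4 : HasFDerivAt (fun z => β (q z) + j a y v) (fderiv ℂ (fun z => β (q z)) z) z :=
        (H.han z hz).differentiableAt.hasFDerivAt.add_const _
      exact (h4.congr_of_eventuallyEq h1).hasMFDerivAt
    have h4 := h3.mfderiv
    rw [h2.mfderiv] at h4
    intro ξ ξ' hξ
    have h45 := fun ξ : Cm d => DFunLike.congr_fun h4 ξ
    have h5 : fderiv ℂ (fun z => β (q z)) z (ξ : Cm d) = fderiv ℂ (fun z => β (q z)) z (ξ' : Cm d) :=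
      (h45 ξ).symm.trans ((congrArg (mfderiv 𝓘(ℂ, Cm (p + d)) 𝓘(ℂ, V) β' (WW a u β q z v)) hξ).trans
        (h45 ξ'))
    have h6 : ∀ᶠ z' in 𝓝 z, m (β (q z')) = z' := by
      filter_upwards [isOpen_ball.mem_nhds hz] with z' hz'
      exact H.right z' hz'
    have h7 := m_deriv (h := fun z => β (q z)) (H.han z hz).differentiableAt h6
    rw [← h7 ξ, ← h7 ξ', h5]
  loc := by
    intro z hz
    filter_upwards [H.W_loc hM hz] with t h1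
    rw [h1.1]
    exact (H.W_zero hM h1.2.1).symm

end Vale.Agent.P281.H349.UK
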