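import Vale.Agent.P281.H349.UK.Dat

/-!
# P281, project T-UD (helper349, block UK): the data of the orbits from `IsOrbM` and `IsOrbD`, 2
-/

open Set Filter Metric MeasureTheory Vale.Agent.P281 Vale.Agent.P281.H713
open Vale.Agent.P281.MF Vale.Agent.P281.ISO
open Vale.Agent.P281.H64
open Vale.Agent.P281.H64.TU (Tame)
open Vale.Agent.P281.H64.TD (Cub zr)
open Vale.Agent.P281.H303.UD
open scoped Topology ContDiff Manifold

set_option linter.all false

noncomputable section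

namespace Vale.Agent.P281.H349.UK

open Vale.Agent.P281.H349.D (IsThird)

variable {p d : ℕ} {X Y : Type} [TopologicalSpace X] [ChartedSpace (Cm (p + d)) X]
  [TopologicalSpace Y] [ChartedSpace (Cm p) Y]
  {V : Type} [NormedAddCommGroup V] [InnerProductSpace ℂ V] [FiniteDimensional ℂ V]
  {Vb : Type} [NormedAddCommGroup Vb] [InnerProductSpace ℂ Vb] [FiniteDimensional ℂ Vb]
  {n nb : ℕ} {T : Tame (Fin d → ℂ) X} {f : X → Y} {S : Set Y}
  {Q : (Fin n → ℝ) → (Fin n → ℝ) → ℝ} {QB : (Fin nb → ℝ) → (Fin nb → ℝ) → ℝ} {ι : Type}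
  {U : ι → Set Y} {π : ι → Y → ((Fin n → ℝ) ≃L[ℝ] V)} {ϖ : ι → Y → ((Fin nb → ℝ) ≃L[ℝ] Vb)}
  {j : ι → Y → Vb →L[ℂ] V} {ℓ : ι → Y → V →L[ℂ] Vb} {L : ι → X → (X → V) → Prop}
  {u : ι → X → (X → V) → Vb → X} {Δ : Set X → ℝ}
  {Lw : ι → X → (X → V) → (X → Cub Vb) → Prop}
  [IsManifold 𝓘(ℂ, Cm (p + d)) ω X] [IsManifold 𝓘(ℂ, Cm p) ω Y]
  {a : ι} {y : Y} {β : X → V} {w : X → Cub Vb} {m : V →L[ℂ] Cm d} {q : Cm d → X}
  {z₀ : Cm d} {ε : ℝ}

theorem FlatC.inj {𝒜 : Set (Set X)} (H : FlatC p f L 𝒜 Lw a y β w m q z₀ ε)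
    (hM : IsOrbM (Cm (p + d)) (Cm p) d T f S Q QB U π ϖ j ℓ L u) (hy : y ∈ U a) :
    Function.Injective (m.comp (j a y)) := by
  rw [injective_iff_map_eq_zero]
  intro v hv
  have hz₀ : z₀ ∈ ball z₀ ε := mem_ball_self H.pos
  have h1 := H.W_loc hM hz₀
  have h2 : Tendsto (fun t : ℂ => ((z₀, t • v) : Cm d × Vb)) (𝓝 0) (𝓝 (z₀, 0)) := by
    have h3 : ContinuousAt (fun t : ℂ => ((z₀, t • v) : Cm d × Vb)) 0 := by fun_prop
    rw [ContinuousAt, zero_smul] at h3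
    exact h3
  have h4 : ∃ t : ℂ, t ≠ 0 ∧ β (q (z₀ + m (j a y (t • v)))) = β (q z₀) + j a y (t • v) := by
    have h5 := (h2.eventually h1).filter_mono (nhdsWithin_le_nhds (s := {0}ᶜ))
    obtain ⟨t, ht, ht'⟩ := (h5.and self_mem_nhdsWithin).exists
    exact ⟨t, ht', ht.2.2⟩
  obtain ⟨t, ht, h5⟩ := h4
  have h6 : m (j a y (t • v)) = 0 := by
    rw [map_smul, map_smul]
    have : m (j a y v) = 0 := hv
    rw [this, smul_zero]
  rw [h6, add_zero] at h5
  have h7 : j a y (t • v) = 0 := by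
    have := h5.symm
    rwa [add_eq_left] at this
  have h8 := hM.lj a y hy (t • v)
  rw [h7, map_zero] at h8
  exact (smul_eq_zero.1 h8.symm).resolve_left ht

theorem FlatC.tan {𝒜 : Set (Set X)} (H : FlatC p f L 𝒜 Lw a y β w m q z₀ ε)
    (hM : IsOrbM (Cm (p + d)) (Cm p) d T f S Q QB U π ϖ j ℓ L u) {z : Cm d}
    (hz : z ∈ ball z₀ ε) (v : Vb) :
    fderiv ℂ (fderiv ℂ fun z => β (q z)) z (m (j a y v)) = 0 := by
  have h1 := (H.W_loc hM hz).eventually_nhds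
  have h2 : ContinuousAt (fun t : ℂ => ((z, t • v) : Cm d × Vb)) 0 := by fun_prop
  rw [ContinuousAt, zero_smul] at h2
  have h3 : ∀ᶠ t : ℂ in 𝓝 0, fderiv ℂ (fun z => β (q z)) (z + t • m (j a y v)) =
      fderiv ℂ (fun z => β (q z)) z := by
    filter_upwards [h2.eventually h1] with t h4
    have h5 : Tendsto (fun z' : Cm d => ((z', t • v) : Cm d × Vb)) (𝓝 z) (𝓝 (z, t • v)) :=
      (continuous_id.prodMk continuous_const).tendsto _
    have h6 : (fun z' => β (q (z' + t • m (j a y v)))) =ᶠ[𝓝 z] fun z' => β (q z') + j a y (t • v) := by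
      filter_upwards [h5.eventually h4] with z' h7
      have h8 := h7.2.2
      have h9 : m (j a y (t • v)) = t • m (j a y v) := by rw [map_smul, map_smul]
      rw [h9] at h8
      exact h8
    have h9 := h6.fderiv_eq (𝕜 := ℂ)
    rw [fderiv_comp_add_right (f := fun z => β (q z)), fderiv_add_const] at h9
    exact h9
  have h4 : HasFDerivAt (fderiv ℂ fun z => β (q z)) (fderiv ℂ (fderiv ℂ fun z => β (q z)) z) z :=
    (H.han z hz).fderiv.differentiableAt.hasFDerivAt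
  have h5 : HasDerivAt (fun t : ℂ => z + t • m (j a y v)) (m (j a y v)) 0 := by
    have := ((hasDerivAt_id (0 : ℂ)).smul_const (m (j a y v))).const_add z
    simpa using this
  have h6 : HasDerivAt (fun t : ℂ => fderiv ℂ (fun z => β (q z)) (z + t • m (j a y v)))
      (fderiv ℂ (fderiv ℂ fun z => β (q z)) z (m (j a y v))) 0 := by
    have h7 : HasFDerivAt (fderiv ℂ fun z => β (q z)) (fderiv ℂ (fderiv ℂ fun z => β (q z)) z)
      ((fun t : ℂ => z + t • m (j a y v)) 0) := by simpa using h4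
    exact h7.comp_hasDerivAt (0 : ℂ) h5
  have h7 : HasDerivAt (fun t : ℂ => fderiv ℂ (fun z => β (q z)) (z + t • m (j a y v))) 0 0 :=
    (hasDerivAt_const (0 : ℂ) (fderiv ℂ (fun z => β (q z)) z)).congr_of_eventuallyEq h3
  exact h6.unique h7

theorem FlatC.orbDat {s : ℕ} (H : FlatC p f L {D | Δ D ≠ 0} Lw a y β w m q z₀ ε)
    (hM : IsOrbM (Cm (p + d)) (Cm p) d T f S Q QB U π ϖ j ℓ L u)
    (hD : IsOrbD (Cm (p + d)) d T f S Q QB U π ϖ j ℓ L u {D | Δ D ≠ 0} Lw)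
    (h𝒜 : {D | Δ D ≠ 0}.Finite) (hP : ∀ D ∈ {D | Δ D ≠ 0}, J.IsPrime (Cm (p + d)) D)
    (hy : y ∈ U a)
    (hrank : ∀ z ∈ ball z₀ ε, d ≤ s + Module.finrank ℂ
      (ND (fun z => β (q z)) (fun z => tri Vb (w (q z))) z))
    (hgauss : ∀ U : Set (Cm d), IsOpen U → (U ∩ ball z₀ ε).Nonempty → ∃ z ∈ U ∩ ball z₀ ε,
      d ≤ Module.finrank ℂ (LinearMap.range
        (fderiv ℂ (fderiv ℂ fun z => β (q z)) z : Cm d →ₗ[ℂ] (Cm d →L[ℂ] V))) +
        Module.finrank ℂ Vb) :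
    OrbDat (p + d) (f ⁻¹' {y}) Δ s z₀ ε (WW a u β q) (m.comp (j a y)) (ϖ a y)
      (fun z => β (q z)) (fun z => tri Vb (w (q z))) where
  toOrbC := H.orbC hM
  pos := H.pos
  inj := H.inj hM hy
  off := by
    intro z hz D hD'
    rw [H.W_zero hM hz]
    exact H.off z hz D hD'
  per := by
    intro k z hz v
    have h1 := hM.per a (q z) β (H.mem z hz) v (Pi.single k 1)
    rw [zr_single, H.fib z hz] at h1
    exact h1
  han := H.han
  gan := by
    intro z hz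
    have h1 : ContMDiffAt 𝓘(ℂ, Cm d) 𝓘(ℂ, Cub Vb) ω (fun z => w (q z)) z :=
      ContMDiffAt.comp (g := w) (f := q) z
        (w_hol hD h𝒜 hP (H.memw z hz) fun D hD => H.off z hz D hD) (H.hol z hz)
    have h2 : AnalyticAt ℂ (fun z => w (q z)) z := h1.contDiffAt.analyticAt
    exact ((tri Vb).analyticAt _).comp h2
  tan := fun z hz v => H.tan hM hz v
  third := by
    intro z hz
    have h0 : u a (q z) β 0 = q z := hM.zero a (q z) β (H.mem z hz)
    obtain ⟨φ, h1, h2⟩ := hD.third a (q z) β (H.mem z hz) ⟨0, fun D hD => by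
      rw [h0]; exact H.off z hz D hD⟩
    refine ⟨φ, h1, ?_⟩
    have h3 := h2 0 (fun D hD => by rw [h0]; exact H.off z hz D hD) β w
      (by rw [h0]; exact H.memw z hz) (fun v' => by rw [h0, zero_add])
    have h4 : Tendsto (fun v : Vb => ((z, v) : Cm d × Vb)) (𝓝 0) (𝓝 (z, 0)) :=
      (continuous_const.prodMk continuous_id).tendsto _
    filter_upwards [h3, h4.eventually (H.W_loc hM hz)] with v h5 h6
    ext x₁ x₂ x₃
    rw [← h5 x₁ x₂ x₃]
    have h7 : u a (q z) β v = q (z + m (j a y v)) := h6.1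
    show w (u a (q z) β v) ![x₁, x₂, x₃] = tri Vb (w (q (z + m (j a y v)))) x₁ x₂ x₃
    rw [h7, tri_apply]
  rank := hrank
  gauss := hgauss

end Vale.Agent.P281.H349.UK
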