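import Vale.Agent.P281.H349.UK.Lift

/-!
# P281, project T-UD (helper349, block UK): the orbits in the fibre, sections along the orbits
-/

open Set Filter Metric Vale.Agent.P281 Vale.Agent.P281.H713
open Vale.Agent.P281.MF Vale.Agent.P281.ISO
open Vale.Agent.P281.H713.TZ Vale.Agent.P281.H64
open scoped Topology ContDiff Manifold

set_option linter.all false

noncomputable section

namespace Vale.Agent.P281.H349.UK

variable {n d : ℕ} {X F : Type} [TopologicalSpace X] [ChartedSpace (Cm n) X]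
  [TopologicalSpace F] [ChartedSpace (Cm d) F]
  {Vb : Type} [NormedAddCommGroup Vb] [NormedSpace ℂ Vb] [FiniteDimensional ℂ Vb]

/-- `W z v` is the translate by `v` of the point with flat coordinate `z` of the submanifold `B`. -/
structure OrbC (n : ℕ) {d : ℕ} {X : Type} [TopologicalSpace X] [ChartedSpace (Cm n) X]
    {Vb : Type} [NormedAddCommGroup Vb] [NormedSpace ℂ Vb] (B : Set X)
    (z₀ : Cm d) (ε : ℝ) (W : Cm d → Vb → X) (J : Vb →L[ℂ] Cm d) : Prop where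
  hol : ∀ z ∈ ball z₀ ε, ∀ v, ContMDiffAt 𝓘(ℂ, Cm d × Vb) 𝓘(ℂ, Cm n) ω
    (fun p : Cm d × Vb => W p.1 p.2) (z, v)
  mem : ∀ z ∈ ball z₀ ε, ∀ v, W z v ∈ B
  imm : ∀ z ∈ ball z₀ ε, ∀ v,
    Function.Injective (mfderiv 𝓘(ℂ, Cm d) 𝓘(ℂ, Cm n) (fun z => W z v) z)
  loc : ∀ z ∈ ball z₀ ε, ∀ᶠ p : Cm d × Vb in 𝓝 (z, 0), W p.1 p.2 = W (p.1 + J p.2) 0

variable {B : Set X} {z₀ : Cm d} {ε : ℝ} {W : Cm d → Vb → X} {J : Vb →L[ℂ] Cm d} {i : F → X}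

/-- the lift of the orbits -/
structure OrbL (i : F → X) (z₀ : Cm d) (ε : ℝ) (W : Cm d → Vb → X) (t₀ : F)
    (Φ : Cm d → Vb → F) : Prop where
  hol : ∀ z ∈ ball z₀ ε, ∀ v, ContMDiffAt 𝓘(ℂ, Cm d × Vb) 𝓘(ℂ, Cm d) ω
    (fun p : Cm d × Vb => Φ p.1 p.2) (z, v)
  lift : ∀ z ∈ ball z₀ ε, ∀ v, i (Φ z v) = W z v
  base : Φ z₀ 0 = t₀
  per : ∀ k : Vb, (∀ z ∈ ball z₀ ε, ∀ v, W z (v + k) = W z v) → ∃ N : ℕ, 0 < N ∧
    ∀ z ∈ ball z₀ ε, ∀ v, Φ z (v + (N : ℂ) • k) = Φ z v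

theorem OrbC.exists_lift [T2Space X] [IsManifold 𝓘(ℂ, Cm n) ω X] [T2Space F] [CompactSpace F]
    [IsManifold 𝓘(ℂ, Cm d) ω F] (h : OrbC n B z₀ ε W J) (hε : 0 < ε)
    (hB : ∀ x ∈ B, ∃ (Q : Cm d → X) (ζ : X → Cm d), ContMDiffAt 𝓘(ℂ, Cm d) 𝓘(ℂ, Cm n) ω Q (ζ x) ∧
      Q (ζ x) = x ∧ ContMDiffAt 𝓘(ℂ, Cm n) 𝓘(ℂ, Cm d) ω ζ x ∧
      ∀ᶠ x' in 𝓝 x, x' ∈ B → Q (ζ x') = x')
    (ihol : ContMDiff 𝓘(ℂ, Cm d) 𝓘(ℂ, Cm n) ω i)
    (imm : ∀ x, Function.Injective (mfderiv 𝓘(ℂ, Cm d) 𝓘(ℂ, Cm n) i x))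
    (hi : ∀ x, i x ∈ B) {t₀ : F} (ht₀ : i t₀ = W z₀ 0) : ∃ Φ, OrbL i z₀ ε W t₀ Φ := by
  classical
  have hcov := isCovering hB ihol imm hi
  set Ω : Set (Cm d × Vb) := ball z₀ ε ×ˢ univ with hΩ
  have hΩo : IsOpen Ω := isOpen_ball.prod isOpen_univ
  have hΩc : Convex ℝ Ω := (convex_ball z₀ ε).prod convex_univ
  have hp₀ : ((z₀, 0) : Cm d × Vb) ∈ Ω := ⟨mem_ball_self hε, mem_univ _⟩
  have hcontr : ContractibleSpace Ω := hΩc.contractibleSpace ⟨_, hp₀⟩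
  have hloc : LocallyPathConnectedSpace Ω := hΩo.locPathConnectedSpace
  have hpre : PreconnectedSpace Ω :=
    isPreconnected_iff_preconnectedSpace.1 hΩc.isPreconnected
  let w : Ω → B := fun p => ⟨W p.1.1 p.1.2, h.mem _ p.2.1 _⟩
  have hw : Continuous w := by
    refine Continuous.subtype_mk ?_ _
    rw [continuous_iff_continuousAt]
    intro p
    have h1 := (h.hol _ p.2.1 p.1.2).continuousAt
    exact ContinuousAt.comp (g := fun p : Cm d × Vb => W p.1 p.2) (f := fun p : Ω => (p : Cm d × Vb))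
      h1 continuous_subtype_val.continuousAt
  obtain ⟨π, ⟨h1, h2⟩, -⟩ := hcov.existsUnique_continuousMap_lifts ⟨w, hw⟩
    ⟨(z₀, 0), hp₀⟩ t₀ (Subtype.ext ht₀)
  have h3 : ∀ p : Ω, i (π p) = W p.1.1 p.1.2 := fun p => congrArg Subtype.val (congrFun h2 p)
  let Φ : Cm d → Vb → F := fun z v => if hp : ((z, v) : Cm d × Vb) ∈ Ω then π ⟨(z, v), hp⟩ else t₀
  have hΦ : ∀ (z : Cm d) (hz : z ∈ ball z₀ ε) (v : Vb), Φ z v = π ⟨(z, v), hz, mem_univ _⟩ :=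
    fun z hz v => dif_pos (show ((z, v) : Cm d × Vb) ∈ Ω from ⟨hz, mem_univ _⟩)
  have hlift : ∀ z ∈ ball z₀ ε, ∀ v, i (Φ z v) = W z v := fun z hz v => by
    rw [hΦ z hz]; exact h3 _
  have hcont : ∀ z ∈ ball z₀ ε, ∀ v, ContinuousAt (fun p : Cm d × Vb => Φ p.1 p.2) (z, v) := by
    intro z hz v
    have h4 : ContinuousOn (fun p : Cm d × Vb => Φ p.1 p.2) Ω := by
      rw [continuousOn_iff_continuous_restrict]
      have h5 : Ω.domRestrict (fun p : Cm d × Vb => Φ p.1 p.2) = π := by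
        funext p
        exact hΦ p.1.1 p.2.1 p.1.2
      rw [h5]
      exact π.continuous
    exact h4.continuousAt (hΩo.mem_nhds ⟨hz, mem_univ _⟩)
  have hev : ∀ z ∈ ball z₀ ε, ∀ v, ∀ᶠ p : Cm d × Vb in 𝓝 (z, v), i (Φ p.1 p.2) = W p.1 p.2 := by
    intro z hz v
    filter_upwards [hΩo.mem_nhds (show ((z, v) : Cm d × Vb) ∈ Ω from ⟨hz, mem_univ _⟩)] with p hp
    exact hlift _ hp.1 _
  refine ⟨Φ, fun z hz v => ?_, hlift, by rw [hΦ z₀ (mem_ball_self hε)]; exact h1, fun k hk => ?_⟩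
  · exact lift_hol (g := fun p : Cm d × Vb => Φ p.1 p.2) (w := fun p : Cm d × Vb => W p.1 p.2)
      (ihol _) (imm _) (hcont z hz v) (h.hol z hz v) (hev z hz v)
  · -- the periods
    have hWj : ∀ (j : ℕ), ∀ z ∈ ball z₀ ε, ∀ v, W z (v + (j : ℂ) • k) = W z v := by
      intro j
      induction j with
      | zero => intro z hz v; simp
      | succ j ih =>
        intro z hz v
        have e1 : v + ((j + 1 : ℕ) : ℂ) • k = (v + (j : ℂ) • k) + k := by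
          push_cast
          rw [add_smul, one_smul, add_assoc]
        rw [e1, hk z hz, ih z hz]
    set b₀ : B := ⟨W z₀ 0, h.mem _ (mem_ball_self hε) _⟩ with hb₀
    have hfinite : ((fun x : F => (⟨i x, hi x⟩ : B)) ⁻¹' {b₀}).Finite := by
      have h1 : IsClosed ((fun x : F => (⟨i x, hi x⟩ : B)) ⁻¹' {b₀}) :=
        isClosed_singleton.preimage hcov.continuous
      have h2 : DiscreteTopology ((fun x : F => (⟨i x, hi x⟩ : B)) ⁻¹' {b₀}) :=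
        (hcov _).discreteTopology_fiber
      exact h1.isCompact.finite ⟨h2⟩
    have hFin : Finite ((fun x : F => (⟨i x, hi x⟩ : B)) ⁻¹' {b₀}) := hfinite
    let ev : ℕ → ((fun x : F => (⟨i x, hi x⟩ : B)) ⁻¹' {b₀}) := fun j =>
      ⟨Φ z₀ (0 + (j : ℂ) • k), Subtype.ext (by
        show i (Φ z₀ (0 + (j : ℂ) • k)) = W z₀ 0
        rw [hlift _ (mem_ball_self hε), hWj _ _ (mem_ball_self hε)])⟩
    obtain ⟨a, b, hab, hev⟩ := Finite.exists_ne_map_eq_of_infinite ev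
    have key : ∀ a b : ℕ, a < b → ev a = ev b → ∃ N : ℕ, 0 < N ∧
        ∀ z ∈ ball z₀ ε, ∀ v, Φ z (v + (N : ℂ) • k) = Φ z v := by
      intro a b hab hev
      have hev' : Φ z₀ (0 + (a : ℂ) • k) = Φ z₀ (0 + (b : ℂ) • k) := congrArg Subtype.val hev
      have hsh : ∀ j : ℕ, Continuous fun p : Ω => Φ p.1.1 (p.1.2 + (j : ℂ) • k) := by
        intro j
        rw [continuous_iff_continuousAt]
        intro p
        have h5 : ContinuousAt (fun p : Cm d × Vb => (p.1, p.2 + (j : ℂ) • k)) (p : Cm d × Vb) := by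
          fun_prop
        exact ContinuousAt.comp (g := fun p : Cm d × Vb => Φ p.1 (p.2 + (j : ℂ) • k))
          (f := fun p : Ω => (p : Cm d × Vb))
          (ContinuousAt.comp (g := fun p : Cm d × Vb => Φ p.1 p.2)
            (f := fun p : Cm d × Vb => (p.1, p.2 + (j : ℂ) • k)) (hcont _ p.2.1 _) h5)
          continuous_subtype_val.continuousAt
      have h6 : (fun p : Ω => Φ p.1.1 (p.1.2 + (a : ℂ) • k)) =
          fun p : Ω => Φ p.1.1 (p.1.2 + (b : ℂ) • k) := by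
        refine hcov.eq_of_comp_eq (hsh a) (hsh b) ?_ ⟨(z₀, 0), hp₀⟩ hev'
        funext p
        refine Subtype.ext ?_
        show i (Φ p.1.1 (p.1.2 + (a : ℂ) • k)) = i (Φ p.1.1 (p.1.2 + (b : ℂ) • k))
        rw [hlift _ p.2.1, hlift _ p.2.1, hWj _ _ p.2.1, hWj _ _ p.2.1]
      refine ⟨b - a, by omega, fun z hz v => ?_⟩
      have h7 := congrFun h6 ⟨(z, v - (a : ℂ) • k), hz, mem_univ _⟩
      simp only [sub_add_cancel] at h7
      rw [h7]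
      congr 1
      rw [Nat.cast_sub hab.le, sub_smul]
      abel
    rcases lt_or_gt_of_ne hab with h8 | h8
    · exact key a b h8 hev
    · exact key b a h8 hev.symm

variable {t₀ : F} {Φ : Cm d → Vb → F}

/-- the lift in flat coordinates -/
theorem OrbL.loc [IsManifold 𝓘(ℂ, Cm n) ω X] [IsManifold 𝓘(ℂ, Cm d) ω F] (H : OrbL i z₀ ε W t₀ Φ)
    (h : OrbC n B z₀ ε W J)
    (ihol : ContMDiff 𝓘(ℂ, Cm d) 𝓘(ℂ, Cm n) ω i)
    (imm : ∀ x, Function.Injective (mfderiv 𝓘(ℂ, Cm d) 𝓘(ℂ, Cm n) i x)) {z : Cm d}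
    (hz : z ∈ ball z₀ ε) : ∀ᶠ p : Cm d × Vb in 𝓝 (z, 0), Φ p.1 p.2 = Φ (p.1 + J p.2) 0 := by
  obtain ⟨R, hR, hRi⟩ := exists_retr (ihol (Φ z 0)) (imm _)
  have h1 : ContinuousAt (fun p : Cm d × Vb => Φ p.1 p.2) (z, 0) := (H.hol z hz 0).continuousAt
  have h2 : ContinuousAt (fun p : Cm d × Vb => ((p.1 + J p.2, 0) : Cm d × Vb)) (z, 0) := by
    fun_prop
  have h3 : ContinuousAt (fun p : Cm d × Vb => Φ (p.1 + J p.2) 0) (z, 0) :=
    ContinuousAt.comp (g := fun p : Cm d × Vb => Φ p.1 p.2)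
      (f := fun p : Cm d × Vb => ((p.1 + J p.2, 0) : Cm d × Vb)) (by simpa using h1) h2
  have h4 : ∀ᶠ p : Cm d × Vb in 𝓝 (z, 0), p.1 ∈ ball z₀ ε ∧ p.1 + J p.2 ∈ ball z₀ ε := by
    have h5 : ContinuousAt (fun p : Cm d × Vb => p.1) (z, (0 : Vb)) := by fun_prop
    have h6 : ContinuousAt (fun p : Cm d × Vb => p.1 + J p.2) (z, (0 : Vb)) := by fun_prop
    refine (h5.eventually (isOpen_ball.mem_nhds hz)).and
      (h6.eventually (isOpen_ball.mem_nhds ?_))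
    simpa using hz
  have h5 : ∀ᶠ p : Cm d × Vb in 𝓝 (z, 0), R (i (Φ (p.1 + J p.2) 0)) = Φ (p.1 + J p.2) 0 := by
    have h10 : ∀ᶠ t' in 𝓝 (Φ (z + J 0) 0), R (i t') = t' := by simpa using hRi
    exact h3.eventually (p := fun t' => R (i t') = t') h10
  filter_upwards [h.loc z hz, h4, h1.eventually hRi, h5] with p h6 h7 h8 h9
  rw [← h8, ← h9, H.lift _ h7.1, H.lift _ h7.2, h6]

theorem OrbL.imm [IsManifold 𝓘(ℂ, Cm n) ω X] (H : OrbL i z₀ ε W t₀ Φ)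
    (h : OrbC n B z₀ ε W J)
    (ihol : ContMDiff 𝓘(ℂ, Cm d) 𝓘(ℂ, Cm n) ω i) {z : Cm d} (hz : z ∈ ball z₀ ε) (v : Vb) :
    ContMDiffAt 𝓘(ℂ, Cm d) 𝓘(ℂ, Cm d) ω (fun z => Φ z v) z ∧
      (dM (Cm d) (Cm d) (fun z => Φ z v) z).det ≠ 0 := by
  have h1 : ContMDiffAt 𝓘(ℂ, Cm d) 𝓘(ℂ, Cm d × Vb) ω (fun z : Cm d => ((z, v) : Cm d × Vb)) z :=
    ContDiffAt.contMDiffAt (by fun_prop)
  have h2 : ContMDiffAt 𝓘(ℂ, Cm d) 𝓘(ℂ, Cm d) ω (fun z => Φ z v) z :=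
    ContMDiffAt.comp (g := fun p : Cm d × Vb => Φ p.1 p.2)
      (f := fun z : Cm d => ((z, v) : Cm d × Vb)) z (H.hol z hz v) h1
  refine ⟨h2, det_ne_of_inj ?_⟩
  have h3 : (fun z => W z v) =ᶠ[𝓝 z] i ∘ fun z => Φ z v := by
    filter_upwards [isOpen_ball.mem_nhds hz] with z' hz'
    exact (H.lift z' hz' v).symm
  have h5 := (((ihol (Φ z v)).mdifferentiableAt (by simp)).hasMFDerivAt.comp z
    (h2.mdifferentiableAt (by simp)).hasMFDerivAt).congr_of_eventuallyEq h3 |>.mfderiv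
  intro ξ ξ' hξ
  refine h.imm z hz v ?_
  rw [h5]
  exact congrArg (mfderiv 𝓘(ℂ, Cm d) 𝓘(ℂ, Cm n) i (Φ z v)) hξ

end Vale.Agent.P281.H349.UK
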