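import Vale.Agent.P281.H364.UD.D8
import Vale.Agent.P281.H349.UK.Alg

/-!
# P281, project T-UD (helper349, block UK): propagation of the rank along the fibres
-/

open Set Filter Metric Vale.Agent.P281
open Vale.Agent.P281.H64 (Cm IsProperFibration)
open Vale.Agent.P281.H64.TD (Cub)
open Vale.Agent.P281.H713 (minor minor_congr minor_map minor_comp minor_joint minor_contDiffAt)
open Vale.Agent.P281.H969.K (LocAnalytic)
open Vale.Agent.P281.H364.TD
open Vale.Agent.P281.H364.UD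
open scoped Topology ContDiff Manifold

set_option linter.all false

noncomputable section

namespace Vale.Agent.P281.H349.UK

variable {p d : ℕ} {X Y : Type} [TopologicalSpace X] [ChartedSpace (Cm (p + d)) X]
  [TopologicalSpace Y] [ChartedSpace (Cm p) Y]
  {V : Type} [NormedAddCommGroup V] [InnerProductSpace ℂ V] [FiniteDimensional ℂ V]
  {f : X → Y} {S : Set Y} {ι : Type} {U : ι → Set Y} {𝒜 : Set (Set X)}
  {L : ι → X → (X → V) → (X → Cub V) → Prop} {r : ℕ}

/-- local coordinates of the fibre -/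
theorem fib_eq {χ : OpenPartialHomeomorph Y (Cm p)} {c : OpenPartialHomeomorph X (Cm p × Cm d)}
    (hc : H152.K.IsProd f χ c) {x x' : X} (hx : x ∈ c.source) (hx' : x' ∈ c.source)
    (hf : f x' = f x) : c.symm ((c x).1, (c x').2) = x' := by
  have h1 : ((c x).1, (c x').2) = c x' := by
    refine Prod.ext ?_ rfl
    show (c x).1 = (c x').1
    rw [(hc.fst _ hx).2, (hc.fst _ hx').2, hf]
  rw [h1, c.left_inv hx']

theorem fib_mem {χ : OpenPartialHomeomorph Y (Cm p)} {c : OpenPartialHomeomorph X (Cm p × Cm d)}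
    (hc : H152.K.IsProd f χ c) {x : X} (hx : x ∈ c.source) {z : Cm d}
    (hz : ((c x).1, z) ∈ c.target) : f (c.symm ((c x).1, z)) = f x := by
  have h1 := c.map_target hz
  obtain ⟨h2, h3⟩ := hc.fst _ h1
  rw [c.right_inv hz] at h3
  obtain ⟨h4, h5⟩ := hc.fst _ hx
  exact χ.injOn h2 h4 (by rw [← h3, ← h5])

theorem slice_hol' {χ : OpenPartialHomeomorph Y (Cm p)} {c : OpenPartialHomeomorph X (Cm p × Cm d)}
    (hc : H152.K.IsProd f χ c) {t : Cm p} {z : Cm d} (hz : (t, z) ∈ c.target) :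
    ContMDiffAt 𝓘(ℂ, Cm d) 𝓘(ℂ, Cm (p + d)) ω (fun v => c.symm (t, v)) z := by
  have h1 : ContMDiffAt 𝓘(ℂ, Cm p × Cm d) 𝓘(ℂ, Cm (p + d)) ω c.symm (t, z) :=
    (hc.symm_hol _ hz).contMDiffAt (c.open_target.mem_nhds hz)
  have h2 : ContMDiffAt 𝓘(ℂ, Cm d) 𝓘(ℂ, Cm p × Cm d) ω (fun v : Cm d => (t, v)) z :=
    ContDiffAt.contMDiffAt (by fun_prop)
  exact ContMDiffAt.comp (g := c.symm) (f := fun v : Cm d => (t, v)) z h1 h2

variable [IsManifold 𝓘(ℂ, Cm (p + d)) ω X] [IsManifold 𝓘(ℂ, Cm p) ω Y]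

/-- **Propagation along the fibre.** -/
theorem dense_fib (hf : ContMDiff 𝓘(ℂ, Cm (p + d)) 𝓘(ℂ, Cm p) ω f)
    (hp : IsProperFibration (n := p + d) (p := p) f S) {R : Set X}
    (hR : ∀ x, f x ∉ S → LocAnalytic (p := p + d) Rᶜ x) {y : Y} (hy : y ∉ S)
    {x₁ : X} (hx₁ : f x₁ = y) (hx₁R : x₁ ∈ R) :
    ∀ x, f x = y → ∀ N ∈ 𝓝 x, ∃ x' ∈ N, f x' = y ∧ x' ∈ R := by
  intro x hx N hN
  by_contra hcon
  push Not at hcon
  set P : Set (f ⁻¹' {y}) := {x | ∀ᶠ x' in 𝓝 (x : X), f x' = y → x' ∉ R} with hP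
  have hPo : IsOpen P := by
    rw [isOpen_iff_mem_nhds]
    intro x hx
    exact continuous_subtype_val.continuousAt.eventually (eventually_eventually_nhds.2 hx)
  have hPc : IsClosed P := by
    rw [← closure_subset_iff_isClosed]
    intro x hx
    have hxy : f x = y := x.2
    obtain ⟨κ, W, a, hW, hxW, ha, hWa⟩ := hR x (by rw [hxy]; exact hy)
    obtain ⟨c, hxc, hc⟩ := H152.K.exists_prodChart (d := d) hf (chart_mem_atlas (Cm p) (f x))
      (mem_chart_source _ _) (hp.submersive x (by rw [hxy]; exact hy))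
    set O : Set (Cm d) := (fun z : Cm d => ((c x).1, z)) ⁻¹' (c.target ∩ c.symm ⁻¹' W) with hO
    have hOo : IsOpen O := (c.isOpen_inter_preimage_symm hW).preimage (by fun_prop)
    have hxO : (c x).2 ∈ O := by
      refine ⟨c.map_source hxc, ?_⟩
      show c.symm (c x) ∈ W
      rw [c.left_inv hxc]
      exact hxW
    obtain ⟨ε, hε, hball⟩ := Metric.isOpen_iff.1 hOo _ hxO
    have hM : ∀ᶠ x' in 𝓝 (x : X), x' ∈ c.source ∧ (c x').2 ∈ ball (c x).2 ε := by
      have h1 : ContinuousAt (fun x' => (c x').2) (x : X) :=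
        continuous_snd.continuousAt.comp (c.continuousAt hxc)
      have h2 : ∀ᶠ x' in 𝓝 (x : X), x' ∈ c.source := c.open_source.mem_nhds hxc
      exact h2.and (h1.eventually (isOpen_ball.mem_nhds (mem_ball_self hε)))
    obtain ⟨x', ⟨h1, h2⟩, h3⟩ := mem_closure_iff_nhds.1 hx _
      (continuous_subtype_val.continuousAt.eventually hM)
    have hx'y : f x' = f x := by rw [hxy]; exact x'.2
    have hQx' := fib_eq hc hxc h1 hx'y
    have hz' : ((c x).1, (c x').2) ∈ c.target := (hball h2).1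
    have hzero : ∀ j, EqOn (fun z => a j (c.symm ((c x).1, z))) 0 (ball (c x).2 ε) := by
      intro j
      have hA : AnalyticOnNhd ℂ (fun z => a j (c.symm ((c x).1, z))) (ball (c x).2 ε) := by
        intro z hz
        have h4 := ContMDiffAt.comp (g := a j) (f := fun z => c.symm ((c x).1, z)) z
          (ha j _ (hball hz).2) (slice_hol' hc (hball hz).1)
        exact (contMDiffAt_iff_contDiffAt.1 h4).analyticAt
      refine hA.eqOn_zero_of_preconnected_of_eventuallyEq_zero (convex_ball _ _).isPreconnected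
        h2 ?_
      have h4 : Tendsto (fun z => c.symm ((c x).1, z)) (𝓝 (c x').2) (𝓝 (x' : X)) := by
        have h5 := (slice_hol' hc hz').continuousAt
        rw [ContinuousAt, hQx'] at h5
        exact h5
      filter_upwards [h4.eventually h3, isOpen_ball.mem_nhds h2] with z h5 h6
      have h7 := h5 (by rw [fib_mem hc hxc (hball h6).1, hxy])
      exact (hWa _ (hball h6).2).1 h7 j
    show ∀ᶠ x' in 𝓝 (x : X), f x' = y → x' ∉ R
    filter_upwards [hM] with x'' h4 h5
    have h6 := fib_eq hc hxc h4.1 (by rw [h5, hxy])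
    have h7 : x'' ∈ Rᶜ := (hWa x'' (by rw [← h6]; exact (hball h4.2).2)).2 fun j => by
      have := hzero j h4.2
      rw [← h6]
      exact this
    exact h7
  have hpre : PreconnectedSpace (f ⁻¹' {y}) :=
    isPreconnected_iff_preconnectedSpace.1 (hp.connected y hy).isPreconnected
  have hxP : (⟨x, hx⟩ : f ⁻¹' {y}) ∈ P := by
    show ∀ᶠ x' in 𝓝 x, f x' = y → x' ∉ R
    filter_upwards [hN] with x' h1 h2 h3
    exact hcon x' h1 h2 h3
  have hPu : P = univ := IsClopen.eq_univ ⟨hPc, hPo⟩ ⟨_, hxP⟩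
  have h1 : (⟨x₁, hx₁⟩ : f ⁻¹' {y}) ∈ P := by rw [hPu]; exact mem_univ _
  exact (Filter.Eventually.self_of_nhds (show ∀ᶠ x' in 𝓝 x₁, f x' = y → x' ∉ R from h1)) hx₁ hx₁R

end Vale.Agent.P281.H349.UK
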