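import Vale.Agent.P281.H364.UD.Bridge
import Vale.Agent.P281.H511.UD.Alg
import Vale.Agent.P281.H349.UK.Dat2

/-!
# P281, project T-UD (helper349, block UK): the ranks
-/

open Set Filter Metric MeasureTheory Vale.Agent.P281 Vale.Agent.P281.H713
open Vale.Agent.P281.MF Vale.Agent.P281.ISO
open Vale.Agent.P281.H64
open Vale.Agent.P281.H64.TU (Tame RankAt)
open Vale.Agent.P281.H64.TD (Cub zr)
open Vale.Agent.P281.H303.UD
open Vale.Agent.P281.H364.UD (RkUD gf UDat RSetU)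
open scoped Topology ContDiff Manifold

set_option linter.all false

noncomputable section

namespace Vale.Agent.P281.H349.UK

section alg
variable {d : ℕ} {V Vb : Type} [NormedAddCommGroup V] [InnerProductSpace ℂ V]
  [FiniteDimensional ℂ V] [NormedAddCommGroup Vb] [InnerProductSpace ℂ Vb]
  [FiniteDimensional ℂ Vb]

theorem le_of_rkUD {r : ℕ} {h : Cm d → V} {z : Cm d} (hh : AnalyticAt ℂ h z)
    (H : RkUD r h (fun _ => (0 : Cub V)) z) : r ≤ Module.finrank ℂ (LinearMap.range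
      (fderiv ℂ (fderiv ℂ h) z : Cm d →ₗ[ℂ] (Cm d →L[ℂ] V))) := by
  obtain ⟨m₀, g, h0, hs⟩ := H
  set A : Cm d →ₗ[ℂ] (Cm d →L[ℂ] V) :=
    (fderiv ℂ (fderiv ℂ h) z : Cm d →ₗ[ℂ] (Cm d →L[ℂ] V)) with hA
  set B : Cm d →ₗ[ℂ] (Fin r → ℂ) := (ContinuousLinearMap.pi fun k : Fin r =>
      fderiv ℂ (gf m₀ (g k) h fun _ => 0) z : Cm d →L[ℂ] (Fin r → ℂ)).toLinearMap with hB'
  have hB : Function.Surjective B := hs
  have hd : ∀ m : Fin d → (V →L[ℂ] ℂ), HasFDerivAt (minor m h) (fderiv ℂ (minor m h) z) z := fun m =>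
    ((minor_contDiffAt m hh.contDiffAt).differentiableAt (by simp)).hasFDerivAt
  have hker : LinearMap.ker A ≤ LinearMap.ker B := by
    intro ξ hξ
    have hξ' : fderiv ℂ (fderiv ℂ h) z ξ = 0 := hξ
    have h0' : ∀ m : Fin d → (V →L[ℂ] ℂ), fderiv ℂ (minor m h) z ξ = 0 := minor_zero hh hξ'
    show B ξ = 0
    funext k
    show fderiv ℂ (gf m₀ (g k) h fun _ => 0) z ξ = 0
    rcases hg : g k with m | l
    · have h1 : gf m₀ (Sum.inl m) h (fun _ => (0 : Cub V)) =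
          fun v => minor m h v * (minor m₀ h v)⁻¹ := by
        funext v; exact div_eq_mul_inv _ _
      have h2 : HasFDerivAt (fun v => (minor m₀ h v)⁻¹)
          ((-(minor m₀ h z ^ 2)⁻¹) • fderiv ℂ (minor m₀ h) z) z :=
        (hasDerivAt_inv h0).comp_hasFDerivAt z (hd m₀)
      have h3 := (hd m).fun_mul h2
      rw [h1, h3.fderiv]
      simp [h0']
    · have h1 : gf m₀ (Sum.inr l) h (fun _ => (0 : Cub V)) = fun _ => l 0 := rfl
      rw [h1]
      simp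
  have h1 := LinearMap.finrank_range_add_finrank_ker A
  have h2 := LinearMap.finrank_range_add_finrank_ker B
  have h3 := Submodule.finrank_mono hker
  have h4 : Module.finrank ℂ (LinearMap.range B) = r := by
    rw [LinearMap.range_eq_top.2 hB, finrank_top]; simp
  omega

theorem tri_injective : Function.Injective (tri Vb) := by
  rw [injective_iff_map_eq_zero]
  intro T hT
  ext v
  have h1 := tri_apply T (v 0) (v 1) (v 2)
  rw [hT] at h1
  have h2 : ![v 0, v 1, v 2] = v := by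
    funext i
    fin_cases i <;> rfl
  rw [h2] at h1
  exact h1.symm

theorem nd_tri {h : Cm d → V} {w : Cm d → Cub Vb} {z : Cm d} (hw : DifferentiableAt ℂ w z) :
    ND h (fun z => tri Vb (w z)) z = ND h w z := by
  have h1 : fderiv ℂ (fun z => tri Vb (w z)) z = (tri Vb).comp (fderiv ℂ w z) :=
    ((tri Vb).hasFDerivAt.comp z hw.hasFDerivAt).fderiv
  unfold ND
  rw [h1]
  congr 1
  ext ξ
  constructor
  · intro h2
    have h3 : tri Vb (fderiv ℂ w z ξ) = 0 := h2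
    exact tri_injective (h3.trans (map_zero _).symm)
  · intro h2
    have h3 : fderiv ℂ w z ξ = 0 := h2
    show tri Vb (fderiv ℂ w z ξ) = 0
    rw [h3, map_zero]

end alg

variable {p d : ℕ} {X Y : Type} [TopologicalSpace X] [ChartedSpace (Cm (p + d)) X]
  [TopologicalSpace Y] [ChartedSpace (Cm p) Y]
  {V : Type} [NormedAddCommGroup V] [InnerProductSpace ℂ V] [FiniteDimensional ℂ V]
  {Vb : Type} [NormedAddCommGroup Vb] [InnerProductSpace ℂ Vb] [FiniteDimensional ℂ Vb]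
  {n nb : ℕ} {T : Tame (Fin d → ℂ) X} {f : X → Y} {S : Set Y}
  {Q : (Fin n → ℝ) → (Fin n → ℝ) → ℝ} {QB : (Fin nb → ℝ) → (Fin nb → ℝ) → ℝ} {ι : Type}
  {U : ι → Set Y} {π : ι → Y → ((Fin n → ℝ) ≃L[ℝ] V)} {ϖ : ι → Y → ((Fin nb → ℝ) ≃L[ℝ] Vb)}
  {j : ι → Y → Vb →L[ℂ] V} {ℓ : ι → Y → V →L[ℂ] Vb} {L : ι → X → (X → V) → Prop}
  {u : ι → X → (X → V) → Vb → X} {𝒜 : Set (Set X)}
  {Lw : ι → X → (X → V) → (X → Cub Vb) → Prop}
  [IsManifold 𝓘(ℂ, Cm (p + d)) ω X] [IsManifold 𝓘(ℂ, Cm p) ω Y]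
  {a : ι} {y : Y} {β : X → V} {w : X → Cub Vb} {m : V →L[ℂ] Cm d} {q : Cm d → X}
  {z₀ : Cm d} {ε : ℝ}

theorem FlatC.rank {s : ℕ} (H : FlatC p f L 𝒜 Lw a y β w m q z₀ ε)
    (hf : ContMDiff 𝓘(ℂ, Cm (p + d)) 𝓘(ℂ, Cm p) ω f)
    (hp : IsProperFibration (n := p + d) (p := p) f S)
    (hM : IsOrbM (Cm (p + d)) (Cm p) d T f S Q QB U π ϖ j ℓ L u)
    (hD : IsOrbD (Cm (p + d)) d T f S Q QB U π ϖ j ℓ L u 𝒜 Lw) (h𝒜 : 𝒜.Finite)
    (hP : ∀ D ∈ 𝒜, J.IsPrime (Cm (p + d)) D) (hy : y ∈ U a)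
    (hnot : ¬ H511.UD.RankUD (Cm (p + d)) (d := d) f U 𝒜 (fun a x β W => ∃ w, Lw a x β w ∧
      W = fun z => (w z).compContinuousLinearMap fun _ => ℓ a (f z)) (s + 1) y) {z : Cm d}
    (hz : z ∈ ball z₀ ε) :
    d ≤ s + Module.finrank ℂ (ND (fun z => β (q z)) (fun z => tri Vb (w (q z))) z) := by
  by_contra hcon
  have hw1 : ContMDiffAt 𝓘(ℂ, Cm d) 𝓘(ℂ, Cub Vb) ω (fun z => w (q z)) z :=
    ContMDiffAt.comp (g := w) (f := q) z
      (w_hol hD h𝒜 hP (H.memw z hz) fun D hD => H.off z hz D hD) (H.hol z hz)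
  have hw2 : AnalyticAt ℂ (fun z => w (q z)) z := hw1.contDiffAt.analyticAt
  have hw : DifferentiableAt ℂ (fun z => w (q z)) z := hw2.differentiableAt
  rw [nd_tri hw] at hcon
  have hm : ∀ᶠ z' in 𝓝 z, m (β (q z')) = z' := by
    filter_upwards [isOpen_ball.mem_nhds hz] with z' hz'
    exact H.right z' hz'
  have hfib : ∀ᶠ z' in 𝓝 z, f (q z') = y := by
    filter_upwards [isOpen_ball.mem_nhds hz] with z' hz'
    exact H.fib z' hz'
  have h2 : H511.UD.RankUDAt (s + 1) (fun z => β (q z))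
      (fun u => (w (q u)).compContinuousLinearMap fun _ => ℓ a y) z :=
    rankUD_of_finrank (w := fun z => w (q z)) (hM.lj a y hy) (H.han z hz) hm hw (not_le.1 hcon)
  have hW : DifferentiableAt ℂ
      (fun u => (w (q u)).compContinuousLinearMap fun _ => ℓ a y) z := by
    let e : Cub Vb →L[ℂ] Cub V := ContinuousMultilinearMap.compContinuousLinearMapL fun _ => ℓ a y
    exact e.differentiableAt.comp z hw
  have h3 := RkUD.of_rankUDAt (H.han z hz).contDiffAt hW h2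
  have h4 : RkUD (s + 1) (fun v => β (q v)) (fun v => (fun x => (w x).compContinuousLinearMap
      fun _ => ℓ a (f x)) (q v)) z := by
    refine h3.congr (Filter.EventuallyEq.refl _ _) ?_
    filter_upwards [hfib] with z' h5
    show _ = (w (q z')).compContinuousLinearMap fun _ => ℓ a (f (q z'))
    rw [h5]
  have hU := H364.UD.uDat (H511.UD.algStmt d n nb (Cm (p + d)) (Cm p) X Y V Vb T f S Q QB ι U π ϖ j
    ℓ L u 𝒜 Lw hf hM hD)
  have h5 : q z ∈ RSetU p d f U 𝒜 (fun a x β W => ∃ w, Lw a x β w ∧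
      W = fun z => (w z).compContinuousLinearMap fun _ => ℓ a (f z)) (s + 1) :=
    ⟨H.off z hz, a, β, _, by rw [H.fib z hz]; exact hy, ⟨w, H.memw z hz, rfl⟩, q, z, H.hol z hz,
      rfl, by rw [H.fib z hz]; exact hfib, h4⟩
  have h6 := (H364.UD.rankUD_iff hU h𝒜 fun D hD => (hP D hD).1).2 ⟨q z, h5, H.fib z hz⟩
  refine hnot (H364.UD.rankUD_to hf hU hp.submersive ?_ h6)
  rintro a x β W ⟨w, hw, -⟩ - l hl
  exact hM.full a x β (hD.toL _ _ _ _ hw) l hl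

/-- the data without the third logarithmic derivatives -/
theorem uDat0 (hM : IsOrbM (Cm (p + d)) (Cm p) d T f S Q QB U π ϖ j ℓ L u) :
    UDat (Cm (p + d)) f S U ∅ fun a x β (w : X → Cub V) => L a x β ∧ w = fun _ => 0 where
  cover := hM.cover
  isOpen := hM.isOpen
  lift := fun a x hx => by
    obtain ⟨β, hβ⟩ := hM.lift a x hx
    exact ⟨β, _, hβ, rfl⟩
  bhol := fun a x β w h => hM.liftHol a x β h.1
  pole := by
    rintro a x β w ⟨h1, rfl⟩ F e hF he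
    refine ⟨fun _ => 0, contMDiffAt_const, Filter.Eventually.of_forall fun z hz => ?_⟩
    show ((∏ D ∈ F, e D z) ^ 3 • (0 : Cub V) : Cub V) = 0
    exact smul_zero (A := Cub V) ((∏ D ∈ F, e D z) ^ 3)
  near := by
    rintro a x β w ⟨h1, rfl⟩
    filter_upwards [hM.near a x β h1] with z hz using ⟨hz, rfl⟩
  change := by
    rintro a b x ha hb β w β' w' ⟨h1, rfl⟩ ⟨h2, rfl⟩
    obtain ⟨G, c, Gb, -, -, -, -, h3⟩ := hM.change a b x β β' h1 h2
    refine ⟨G, c, ?_⟩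
    filter_upwards [h3] with z hz hfz
    refine ⟨(hz hfz).1, fun _ => ?_⟩
    ext v
    rfl

theorem FlatC.gauss {r : ℕ} (H : FlatC p f L 𝒜 Lw a y β w m q z₀ ε)
    (hf : ContMDiff 𝓘(ℂ, Cm (p + d)) 𝓘(ℂ, Cm p) ω f)
    (hp : IsProperFibration (n := p + d) (p := p) f S)
    (hM : IsOrbM (Cm (p + d)) (Cm p) d T f S Q QB U π ϖ j ℓ L u) (hy : y ∈ U a)
    (hG : GaussGE (Cm (p + d)) (d := d) f U L r y) (hr : d ≤ r + Module.finrank ℂ Vb) :
    ∀ U : Set (Cm d), IsOpen U → (U ∩ ball z₀ ε).Nonempty → ∃ z ∈ U ∩ ball z₀ ε,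
      d ≤ Module.finrank ℂ (LinearMap.range
        (fderiv ℂ (fderiv ℂ fun z => β (q z)) z : Cm d →ₗ[ℂ] (Cm d →L[ℂ] V))) +
        Module.finrank ℂ Vb := by
  have hU := uDat0 hM
  have hyS : y ∉ S := (hM.cover y).2 ⟨a, hy⟩
  obtain ⟨q₁, v₁, hq₁, hf₁, hr₁⟩ := hG a hy
  have hfq₁ : f (q₁ v₁) = y := hf₁.self_of_nhds
  obtain ⟨β₁, hβ₁⟩ := hM.lift a (q₁ v₁) (by rw [hfq₁]; exact hy)
  obtain ⟨m₁, hm₁, hs₁⟩ := hr₁ β₁ hβ₁
  set L' : ι → X → (X → V) → (X → Cub V) → Prop := fun a x β w => L a x β ∧ w = fun _ => 0 with hL'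
  have h1 : q₁ v₁ ∈ RSetU p d f U ∅ L' r :=
    ⟨fun D hD => hD.elim, a, β₁, fun _ => 0, by rw [hfq₁]; exact hy, ⟨hβ₁, rfl⟩, q₁, v₁, hq₁, rfl,
      by rw [hfq₁]; exact hf₁, m₁ 0, fun k => Sum.inl (m₁ k.succ), hm₁, hs₁⟩
  have hdense := dense_fib hf hp (R := RSetU p d f U ∅ L' r)
    (fun x hx => H364.UD.locAnalytic_rSetU hf hU finite_empty (fun D hD => hD.elim) hx
      (hp.submersive x hx)) hyS hfq₁ h1
  rintro U' hU' ⟨z₁, hz₁U, hz₁⟩
  have hN : ∀ᶠ x in 𝓝 (q z₁), (f x = y → q (m (β x)) = x) ∧ m (β x) ∈ U' ∩ ball z₀ ε := by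
    have h2 : ContinuousAt (fun x => m (β x)) (q z₁) :=
      m.continuous.continuousAt.comp (hM.liftHol a _ β (H.mem z₁ hz₁)).continuousAt
    have h3 : U' ∩ ball z₀ ε ∈ 𝓝 (m (β (q z₁))) := by
      rw [H.right z₁ hz₁]
      exact (hU'.inter isOpen_ball).mem_nhds ⟨hz₁U, hz₁⟩
    filter_upwards [H.left z₁ hz₁, h2.eventually h3] with x h4 h5 using ⟨h4, h5⟩
  obtain ⟨x', ⟨hx1, hx2⟩, hfx', hx'⟩ := hdense (q z₁) (H.fib z₁ hz₁) _ hN
  refine ⟨m (β x'), hx2, hr.trans (Nat.add_le_add_right ?_ _)⟩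
  have hqx : q (m (β x')) = x' := hx1 hfx'
  obtain ⟨-, a', β', w', hya', hL2, q', v', hq', hqx', hfq', hrk⟩ := hx'
  have hmem : L a x' β := by
    have := H.mem _ hx2.2
    rwa [hqx] at this
  have h2 : RkUD r (fun v => β (q' v)) (fun v => (fun _ => (0 : Cub V)) (q' v)) v' :=
    H364.UD.rkUD_change hU (x := x') (Filter.Eventually.of_forall fun z D hD => hD.elim)
      (a := a') (b := a) hya' (by rw [hfx']; exact hy) hL2 ⟨hmem, rfl⟩ hq' hqx' hfq' hrk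
  set θ : Cm d → Cm d := fun v => m (β (q' v)) with hθ
  have hβq' : ContMDiffAt 𝓘(ℂ, Cm d) 𝓘(ℂ, V) ω (fun v => β (q' v)) v' :=
    ContMDiffAt.comp (g := β) (f := q') v' (by rw [hqx']; exact hM.liftHol a x' β hmem) hq'
  have hθ' : ContDiffAt ℂ ω θ v' := m.contDiff.contDiffAt.comp v' hβq'.contDiffAt
  have hθv : θ v' = m (β x') := by rw [hθ]; simp only; rw [hqx']
  have hqc : Tendsto q' (𝓝 v') (𝓝 x') := by
    have := hq'.continuousAt.tendsto
    rwa [hqx'] at this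
  have hleft : ∀ᶠ x in 𝓝 x', f x = y → q (m (β x)) = x := by
    have := H.left _ hx2.2
    rwa [hqx] at this
  have h3 : RkUD r (fun v => (fun z => β (q z)) (θ v)) (fun v => (fun _ => (0 : Cub V)) (θ v)) v' := by
    refine h2.congr ?_ (Filter.EventuallyEq.refl _ _)
    filter_upwards [hqc.eventually hleft, hfq'] with v h4 h5
    show β (q' v) = β (q (m (β (q' v))))
    rw [h4 (by rw [h5, hfx'])]
  have hzz : θ v' ∈ ball z₀ ε := by rw [hθv]; exact hx2.2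
  have h4 := RkUD.of_comp (h := fun z => β (q z)) (W := fun _ => (0 : Cub V)) hθ'
    (H.han _ hzz).contDiffAt (differentiableAt_const _) h3
  rw [hθv] at h4
  exact le_of_rkUD (H.han _ hx2.2) h4

end Vale.Agent.P281.H349.UK
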