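import Vale.Agent.P281.H349.UK.Orbit

/-!
# P281, project T-UD (helper349, block UK): sections along the orbits
-/

open Set Filter Metric Vale.Agent.P281 Vale.Agent.P281.H713
open Vale.Agent.P281.MF Vale.Agent.P281.ISO
open Vale.Agent.P281.H713.TZ Vale.Agent.P281.H64
open scoped Topology ContDiff Manifold

set_option linter.all false

noncomputable section

namespace Vale.Agent.P281.H349.UK

open Vale.Agent.P281.H349.D (IsThird cocompact eq_ne eq_hol)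

variable {n d : ℕ} {X F : Type} [TopologicalSpace X] [ChartedSpace (Cm n) X]
  [TopologicalSpace F] [ChartedSpace (Cm d) F]
  {Vb : Type} [NormedAddCommGroup Vb] [NormedSpace ℂ Vb] [FiniteDimensional ℂ Vb]
  {B : Set X} {z₀ : Cm d} {ε : ℝ} {W : Cm d → Vb → X} {J : Vb →L[ℂ] Cm d} {i : F → X}
  {t₀ : F} {Φ : Cm d → Vb → F}

/-- the section `s` in the flat coordinates translated by `v` -/
def SS (s : F → ℂ) (m : ℕ) (Φ : Cm d → Vb → F) (z : Cm d) (v : Vb) : ℂ :=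
  s (Φ z v) * (dM (Cm d) (Cm d) (fun z => Φ z v) z).det ^ m

theorem OrbL.SS_analytic [IsManifold 𝓘(ℂ, Cm n) ω X] [IsManifold 𝓘(ℂ, Cm d) ω F]
    (H : OrbL i z₀ ε W t₀ Φ) (ihol : ContMDiff 𝓘(ℂ, Cm d) 𝓘(ℂ, Cm n) ω i) {m : ℕ}
    {k : Set X → ℕ} {s : F → ℂ}
    (hs : Vale.Agent.P281.J.IsSection (Cm d) (fun (D : Set X) t g => ∃ e, Vale.Agent.P281.J.IsLocalEq (Cm n) D e (i t) ∧
      ∀ᶠ s in 𝓝 t, g s = e (i s)) m k s) {z : Cm d} (hz : z ∈ ball z₀ ε) {v : Vb}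
    (hD : ∀ D, k D ≠ 0 → W z v ∉ D) :
    AnalyticAt ℂ (fun p : Cm d × Vb => SS s m Φ p.1 p.2) (z, v) := by
  obtain ⟨T, g, a, hT, hg, ha, hev⟩ := hs (Φ z v)
  have hΦ := H.hol z hz v
  set e := chartAt (Cm d) (Φ z v) with he
  have hcomp : ∀ {G : F → ℂ}, ContMDiffAt 𝓘(ℂ, Cm d) 𝓘(ℂ, ℂ) ω G (Φ z v) →
      AnalyticAt ℂ (fun p : Cm d × Vb => G (Φ p.1 p.2)) (z, v) := by
    intro G hG
    have h1 : ContMDiffAt 𝓘(ℂ, Cm d × Vb) 𝓘(ℂ, ℂ) ω (fun p : Cm d × Vb => G (Φ p.1 p.2)) (z, v) :=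
      ContMDiffAt.comp (g := G) (f := fun p : Cm d × Vb => Φ p.1 p.2) (z, v) hG hΦ
    exact (contMDiffAt_iff_contDiffAt.1 h1).analyticAt
  have hgA : ∀ D ∈ T, AnalyticAt ℂ (fun p : Cm d × Vb => g D (Φ p.1 p.2)) (z, v) := by
    intro D hD'
    obtain ⟨u, hu, hgu⟩ := hg D hD'
    refine hcomp ?_
    have h1 : ContMDiffAt 𝓘(ℂ, Cm d) 𝓘(ℂ, ℂ) ω (fun t => u (i t)) (Φ z v) :=
      ContMDiffAt.comp (g := u) (Φ z v) (eq_hol hu) (ihol _)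
    exact h1.congr_of_eventuallyEq hgu
  have hprod : AnalyticAt ℂ (fun p : Cm d × Vb => ∏ D ∈ T, g D (Φ p.1 p.2) ^ k D) (z, v) :=
    Finset.analyticAt_fun_prod _ fun D hD => (hgA D hD).pow _
  have h0 : ∏ D ∈ T, g D (Φ z v) ^ k D ≠ 0 := by
    refine Finset.prod_ne_zero_iff.2 fun D hD' => ?_
    by_cases hk : k D = 0
    · rw [hk, pow_zero]; exact one_ne_zero
    · refine pow_ne_zero _ ?_
      obtain ⟨u, hu, hgu⟩ := hg D hD'
      rw [hgu.self_of_nhds]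
      refine fun h1 => hD D hk ?_
      rw [← H.lift z hz v]
      exact (eq_ne hu).1 h1
  have haA := hcomp (show ContMDiffAt 𝓘(ℂ, Cm d) 𝓘(ℂ, ℂ) ω a (Φ z v) from ha)
  -- the determinant
  set Ψ : Cm d × Vb → Cm d := fun p => e (Φ p.1 p.2) with hΨ
  have heA : ContMDiffAt 𝓘(ℂ, Cm d) 𝓘(ℂ, Cm d) ω e (Φ z v) :=
    contMDiffAt_of_mem_maximalAtlas (IsManifold.chart_mem_maximalAtlas _) (mem_chart_source _ _)
  have hΨA : AnalyticAt ℂ Ψ (z, v) := by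
    have h1 : ContMDiffAt 𝓘(ℂ, Cm d × Vb) 𝓘(ℂ, Cm d) ω Ψ (z, v) :=
      ContMDiffAt.comp (g := e) (f := fun p : Cm d × Vb => Φ p.1 p.2) (z, v) heA hΦ
    exact (contMDiffAt_iff_contDiffAt.1 h1).analyticAt
  have hdet : AnalyticAt ℂ (fun p : Cm d × Vb =>
      ((fderiv ℂ Ψ p).comp (ContinuousLinearMap.inl ℂ (Cm d) Vb)).det) (z, v) := by
    have h1 : AnalyticAt ℂ (fun p : Cm d × Vb =>
        (fderiv ℂ Ψ p).comp (ContinuousLinearMap.inl ℂ (Cm d) Vb)) (z, v) :=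
      (((ContinuousLinearMap.compL ℂ (Cm d) (Cm d × Vb) (Cm d)).flip
        (ContinuousLinearMap.inl ℂ (Cm d) Vb)).analyticAt _).comp hΨA.fderiv
    have h2 : ContDiffAt ℂ ω (fun p : Cm d × Vb =>
      ((fderiv ℂ Ψ p).comp (ContinuousLinearMap.inl ℂ (Cm d) Vb)).det) (z, v) :=
      (contDiff_det.contDiffAt).comp (z, v) h1.contDiffAt
    exact h2.analyticAt
  refine ((haA.div hprod h0).mul (hdet.pow m)).congr ?_
  have hsrc : ∀ᶠ p : Cm d × Vb in 𝓝 (z, v), Φ p.1 p.2 ∈ e.source :=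
    hΦ.continuousAt.eventually (e.open_source.mem_nhds (mem_chart_source _ _))
  have hball : ∀ᶠ p : Cm d × Vb in 𝓝 (z, v), p.1 ∈ ball z₀ ε := by
    have : ContinuousAt (fun p : Cm d × Vb => p.1) (z, v) := by fun_prop
    exact this.eventually (isOpen_ball.mem_nhds hz)
  filter_upwards [hΦ.continuousAt.eventually hev, hprod.continuousAt.eventually_ne h0, hsrc, hball,
    hΨA.eventually_analyticAt] with p h1 h2 h3 h4 h5
  have h6 := h1 h2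
  have hΦp : ContMDiffAt 𝓘(ℂ, Cm d) 𝓘(ℂ, Cm d) ω (fun z => Φ z p.2) p.1 :=
    ContMDiffAt.comp (g := fun p : Cm d × Vb => Φ p.1 p.2)
      (f := fun z : Cm d => ((z, p.2) : Cm d × Vb)) p.1 (H.hol p.1 h4 p.2)
      (ContDiffAt.contMDiffAt (by fun_prop))
  have hep : ContMDiffAt 𝓘(ℂ, Cm d) 𝓘(ℂ, Cm d) ω e (Φ p.1 p.2) :=
    contMDiffAt_of_mem_maximalAtlas (IsManifold.chart_mem_maximalAtlas _) h3
  have h7 : dM (Cm d) (Cm d) (fun z => e (Φ z p.2)) p.1 =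
      (dM (Cm d) (Cm d) e (Φ p.1 p.2)).comp (dM (Cm d) (Cm d) (fun z => Φ z p.2) p.1) :=
    ((hep.mdifferentiableAt (by simp)).hasMFDerivAt.comp p.1
      (hΦp.mdifferentiableAt (by simp)).hasMFDerivAt).mfderiv
  have h8 : dM (Cm d) (Cm d) (fun z => e (Φ z p.2)) p.1 =
      (fderiv ℂ Ψ p).comp (ContinuousLinearMap.inl ℂ (Cm d) Vb) := by
    have h9 : HasFDerivAt (fun z : Cm d => ((z, p.2) : Cm d × Vb))
        (ContinuousLinearMap.inl ℂ (Cm d) Vb) p.1 := hasFDerivAt_prodMk_left _ _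
    have h10 : HasFDerivAt Ψ (fderiv ℂ Ψ p) (p.1, p.2) := h5.differentiableAt.hasFDerivAt
    exact (h10.comp p.1 h9).hasMFDerivAt.mfderiv
  have h11 : (dM (Cm d) (Cm d) e (Φ p.1 p.2)).det * (dM (Cm d) (Cm d) (fun z => Φ z p.2) p.1).det =
      ((fderiv ℂ Ψ p).comp (ContinuousLinearMap.inl ℂ (Cm d) Vb)).det := by
    rw [← h8, h7, clm_det_comp]
  show a (Φ p.1 p.2) / (∏ D ∈ T, g D (Φ p.1 p.2) ^ k D) *
    ((fderiv ℂ Ψ p).comp (ContinuousLinearMap.inl ℂ (Cm d) Vb)).det ^ m =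
    s (Φ p.1 p.2) * (dM (Cm d) (Cm d) (fun z => Φ z p.2) p.1).det ^ m
  have h12 : s (Φ p.1 p.2) = a (Φ p.1 p.2) * (dM (Cm d) (Cm d) e (Φ p.1 p.2)).det ^ m /
      ∏ D ∈ T, g D (Φ p.1 p.2) ^ k D := by
    rw [eq_div_iff h2]
    exact h6
  rw [h12, ← h11, mul_pow]
  ring

theorem OrbL.SS_per (H : OrbL i z₀ ε W t₀ Φ) {s : F → ℂ} {m : ℕ} {l : Vb}
    (hl : ∀ z ∈ ball z₀ ε, ∀ v, Φ z (v + l) = Φ z v) {z : Cm d} (hz : z ∈ ball z₀ ε) (v : Vb) :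
    SS s m Φ z (v + l) = SS s m Φ z v := by
  have h1 : (fun z => Φ z (v + l)) =ᶠ[𝓝 z] fun z => Φ z v := by
    filter_upwards [isOpen_ball.mem_nhds hz] with z' hz'
    exact hl z' hz' v
  unfold SS
  rw [hl z hz]
  have h2 : dM (Cm d) (Cm d) (fun z => Φ z (v + l)) z = dM (Cm d) (Cm d) (fun z => Φ z v) z :=
    h1.mfderiv_eq
  rw [h2]

theorem OrbL.SS_loc [IsManifold 𝓘(ℂ, Cm n) ω X] [IsManifold 𝓘(ℂ, Cm d) ω F]
    (H : OrbL i z₀ ε W t₀ Φ) (h : OrbC n B z₀ ε W J)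
    (ihol : ContMDiff 𝓘(ℂ, Cm d) 𝓘(ℂ, Cm n) ω i)
    (imm : ∀ x, Function.Injective (mfderiv 𝓘(ℂ, Cm d) 𝓘(ℂ, Cm n) i x)) {s : F → ℂ} {m : ℕ}
    {z : Cm d} (hz : z ∈ ball z₀ ε) : ∀ᶠ v in 𝓝 0, SS s m Φ z v = SS s m Φ (z + J v) 0 := by
  have h1 := eventually_eventually_nhds.2 (H.loc h ihol imm hz)
  have h2 : Tendsto (fun v : Vb => ((z, v) : Cm d × Vb)) (𝓝 0) (𝓝 (z, 0)) :=
    (continuous_const.prodMk continuous_id).tendsto _
  have h3 : ∀ᶠ v in 𝓝 (0 : Vb), z + J v ∈ ball z₀ ε := by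
    have : ContinuousAt (fun v : Vb => z + J v) 0 := by fun_prop
    exact this.eventually (isOpen_ball.mem_nhds (by simpa using hz))
  filter_upwards [h2.eventually h1, h3] with v h4 h5
  have h6 : Φ z v = Φ (z + J v) 0 := h4.self_of_nhds
  have h7 : Tendsto (fun z' : Cm d => ((z', v) : Cm d × Vb)) (𝓝 z) (𝓝 (z, v)) :=
    (continuous_id.prodMk continuous_const).tendsto _
  have h8 : (fun z' => Φ z' v) =ᶠ[𝓝 z] fun z' => Φ (z' + J v) 0 := h7.eventually h4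
  have h9 : dM (Cm d) (Cm d) (fun z' => Φ z' v) z =
      dM (Cm d) (Cm d) (fun z' => Φ (z' + J v) 0) z := h8.mfderiv_eq
  have h10 : dM (Cm d) (Cm d) (fun z' => Φ (z' + J v) 0) z =
      dM (Cm d) (Cm d) (fun z' => Φ z' 0) (z + J v) := by
    have h11 : HasMFDerivAt 𝓘(ℂ, Cm d) 𝓘(ℂ, Cm d) (fun z' : Cm d => z' + J v) z
        (ContinuousLinearMap.id ℂ (Cm d)) := ((hasFDerivAt_id z).add_const _).hasMFDerivAt
    have h12 := (((H.imm h ihol h5 0).1.mdifferentiableAt (by simp)).hasMFDerivAt.comp z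
      h11).mfderiv
    have h13 : dM (Cm d) (Cm d) (fun z' => Φ (z' + J v) 0) z =
        (dM (Cm d) (Cm d) (fun z' => Φ z' 0) (z + J v)).comp (ContinuousLinearMap.id ℂ (Cm d)) :=
      h12
    rw [h13]
    rfl
  show s (Φ z v) * (dM (Cm d) (Cm d) (fun z' => Φ z' v) z).det ^ m =
    s (Φ (z + J v) 0) * (dM (Cm d) (Cm d) (fun z' => Φ z' 0) (z + J v)).det ^ m
  rw [h9, h10, h6]

end Vale.Agent.P281.H349.UK
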